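import Vale.Agent.P322.H903.Stab

/-! # P322: from the level-one weight to the distance to the signed coordinates
(the Friedgut-Kalai-Naor theorem, by moments) -/

namespace Vale.Agent.P322.H903

open Finset Vale.Agent.P322

/-- A linear form on the cube. -/
noncomputable def lin {n : ℕ} (a : Fin n → ℝ) (x : Fin n → ℤˣ) : ℝ := ∑ i, a i * ((x i : ℤ) : ℝ)

lemma lin_cons {n : ℕ} (a : Fin (n + 1) → ℝ) (b : ℤˣ) (x : Fin n → ℤˣ) :
    lin a (Fin.cons b x : Fin (n + 1) → ℤˣ) = a 0 * ((b : ℤ) : ℝ) + lin (fun i => a i.succ) x := by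
  unfold lin
  rw [Fin.sum_univ_succ]
  simp only [Fin.cons_zero, Fin.cons_succ]

lemma avg_lin_succ {n : ℕ} (a : Fin (n + 1) → ℝ) (F : ℝ → ℝ) :
    avg (n + 1) (fun x => F (lin a x))
      = avg n (fun x => (F (lin (fun i => a i.succ) x + a 0)
          + F (lin (fun i => a i.succ) x - a 0)) / 2) := by
  rw [avg_succ]
  have e : (fun x : Fin n → ℤˣ => (F (lin (fun i => a i.succ) x + a 0)
          + F (lin (fun i => a i.succ) x - a 0)) / 2)
      = fun x => 1 / 2 * F (lin (fun i => a i.succ) x + a 0)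
          + 1 / 2 * F (lin (fun i => a i.succ) x - a 0) := by
    funext x; ring
  rw [e, avg_add, avg_mul_left, avg_mul_left]
  have e1 : (fun x : Fin n → ℤˣ => F (lin a (Fin.cons 1 x : Fin (n + 1) → ℤˣ)))
      = fun x => F (lin (fun i => a i.succ) x + a 0) := by
    funext x
    rw [lin_cons]
    congr 1; push_cast; ring
  have e2 : (fun x : Fin n → ℤˣ => F (lin a (Fin.cons (-1) x : Fin (n + 1) → ℤˣ)))
      = fun x => F (lin (fun i => a i.succ) x - a 0) := by
    funext x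
    rw [lin_cons]
    congr 1; push_cast; ring
  rw [e1, e2]; ring

lemma mom2 (n : ℕ) : ∀ a : Fin n → ℝ, avg n (fun x => (lin a x) ^ 2) = ∑ i, a i ^ 2 := by
  induction n with
  | zero => intro a; rw [avg_zero_eq]; simp [lin]
  | succ n ih =>
    intro a
    rw [avg_lin_succ a (fun t => t ^ 2), Fin.sum_univ_succ, ← ih (fun i => a i.succ)]
    have e : (fun x : Fin n → ℤˣ => ((lin (fun i => a i.succ) x + a 0) ^ 2
          + (lin (fun i => a i.succ) x - a 0) ^ 2) / 2)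
        = fun x => a 0 ^ 2 + (lin (fun i => a i.succ) x) ^ 2 := by
      funext x; ring
    rw [e, avg_add, avg_const]

lemma mom4 (n : ℕ) : ∀ a : Fin n → ℝ,
    avg n (fun x => (lin a x) ^ 4) = 3 * (∑ i, a i ^ 2) ^ 2 - 2 * ∑ i, a i ^ 4 := by
  induction n with
  | zero => intro a; rw [avg_zero_eq]; simp [lin]
  | succ n ih =>
    intro a
    rw [avg_lin_succ a (fun t => t ^ 4), Fin.sum_univ_succ, Fin.sum_univ_succ]
    have e : (fun x : Fin n → ℤˣ => ((lin (fun i => a i.succ) x + a 0) ^ 4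
          + (lin (fun i => a i.succ) x - a 0) ^ 4) / 2)
        = fun x => (a 0 ^ 4 + (6 * a 0 ^ 2) * (lin (fun i => a i.succ) x) ^ 2)
          + (lin (fun i => a i.succ) x) ^ 4 := by
      funext x; ring
    rw [e, avg_add, avg_add, avg_const, avg_mul_left, ih, mom2]
    ring

lemma mom6 (n : ℕ) : ∀ a : Fin n → ℝ,
    avg n (fun x => (lin a x) ^ 6) ≤ 15 * (∑ i, a i ^ 2) ^ 3 := by
  induction n with
  | zero => intro a; rw [avg_zero_eq]; simp [lin]
  | succ n ih =>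
    intro a
    rw [avg_lin_succ a (fun t => t ^ 6), Fin.sum_univ_succ]
    have e : (fun x : Fin n → ℤˣ => ((lin (fun i => a i.succ) x + a 0) ^ 6
          + (lin (fun i => a i.succ) x - a 0) ^ 6) / 2)
        = fun x => ((a 0 ^ 6 + (15 * a 0 ^ 4) * (lin (fun i => a i.succ) x) ^ 2)
          + (15 * a 0 ^ 2) * (lin (fun i => a i.succ) x) ^ 4)
          + (lin (fun i => a i.succ) x) ^ 6 := by
      funext x; ring
    rw [e, avg_add, avg_add, avg_add, avg_const, avg_mul_left, avg_mul_left, mom4, mom2]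
    have h := ih (fun i => a i.succ)
    set s := ∑ i : Fin n, a i.succ ^ 2 with hs
    set q := ∑ i : Fin n, a i.succ ^ 4 with hq
    have hs0 : 0 ≤ s := Finset.sum_nonneg (fun i _ => sq_nonneg _)
    have hq0 : 0 ≤ q := Finset.sum_nonneg (fun i _ => by positivity)
    have h1 : 0 ≤ a 0 ^ 6 := by positivity
    have h2 : 0 ≤ a 0 ^ 4 * s := by positivity
    have h3 : 0 ≤ a 0 ^ 2 * q := by positivity
    have e2 : 15 * (a 0 ^ 2 + s) ^ 3 = 15 * a 0 ^ 6 + 45 * (a 0 ^ 4 * s) + 45 * (a 0 ^ 2 * s ^ 2)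
        + 15 * s ^ 3 := by ring
    rw [e2]
    linarith only [h, h1, h2, h3]

/-- `E (g - l)^2 = 1 - W1`. -/
lemma proj_eq {n : ℕ} {g : (Fin n → ℤˣ) → ℝ} (hgc : ∀ x, g x = 1 ∨ g x = -1) :
    avg n (fun x => (g x - lin (co n g) x) ^ 2) = 1 - W1 n g := by
  have hsum : ∀ (F : Fin n → (Fin n → ℤˣ) → ℝ), avg n (fun x => ∑ i, F i x) = ∑ i, avg n (F i) := by
    intro F
    unfold avg
    rw [Finset.sum_comm, Finset.mul_sum]
  have e1 : (fun x : Fin n → ℤˣ => (g x - lin (co n g) x) ^ 2)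
      = fun x => (g x ^ 2 + (-2) * ∑ i, co n g i * (g x * ((x i : ℤ) : ℝ)))
        + (lin (co n g) x) ^ 2 := by
    funext x
    have e2 : ∑ i, co n g i * (g x * ((x i : ℤ) : ℝ)) = g x * lin (co n g) x := by
      unfold lin
      rw [Finset.mul_sum]; exact Finset.sum_congr rfl (fun i _ => by ring)
    rw [e2]; ring
  rw [e1, avg_add, avg_add, avg_mul_left, hsum, avg_sq_sign hgc, mom2]
  have e4 : ∀ i, avg n (fun x => co n g i * (g x * ((x i : ℤ) : ℝ))) = co n g i ^ 2 := by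
    intro i
    rw [avg_mul_left]
    have : avg n (fun x => g x * ((x i : ℤ) : ℝ)) = co n g i := rfl
    rw [this]; ring
  rw [Finset.sum_congr rfl (fun i _ => e4 i)]
  unfold W1
  ring

lemma abs_sub_le' {f l : ℝ} (hf : f = 1 ∨ f = -1) : (|l| - 1) ^ 2 ≤ (f - l) ^ 2 := by
  have h1 : |l| ^ 2 = l ^ 2 := sq_abs l
  have h2 : f * l ≤ |l| := by
    rcases hf with rfl | rfl
    · rw [one_mul]; exact le_abs_self l
    · rw [neg_one_mul]; exact neg_le_abs l
  have h3 : f ^ 2 = 1 := by rcases hf with rfl | rfl <;> norm_num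
  nlinarith only [h1, h2, h3]

/-- `E (|l| - 1)^2 ≤ 1 - W1`. -/
lemma absl_le {n : ℕ} {g : (Fin n → ℤˣ) → ℝ} (hgc : ∀ x, g x = 1 ∨ g x = -1) :
    avg n (fun x => (|lin (co n g) x| - 1) ^ 2) ≤ 1 - W1 n g := by
  rw [← proj_eq hgc]
  exact avg_mono (fun x => abs_sub_le' (hgc x))

/-- the pointwise inequality of the one-large-coefficient case -/
lemma pair_ge {α R : ℝ} (hα : 1 / 2 ≤ α ^ 2) :
    R ^ 2 - 6 / 10 * R ^ 4 ≤ ((|α + R| - 1) ^ 2 + (|-α + R| - 1) ^ 2) / 2 := by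
  have h1 : |α + R| ^ 2 = (α + R) ^ 2 := sq_abs _
  have h2 : |-α + R| ^ 2 = (-α + R) ^ 2 := sq_abs _
  have hR4 : |R| ^ 4 = R ^ 4 := by
    have := sq_abs R
    calc |R| ^ 4 = (|R| ^ 2) ^ 2 := by ring
      _ = (R ^ 2) ^ 2 := by rw [this]
      _ = R ^ 4 := by ring
  have hmax : |α + R| + |-α + R| ≤ 2 * |α| ∨ |α + R| + |-α + R| ≤ 2 * |R| := by
    rcases abs_cases (α + R) with h | h <;> rcases abs_cases (-α + R) with h' | h' <;>
      rcases abs_cases α with h'' | h'' <;> rcases abs_cases R with h3 | h3 <;>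
      first
        | (left; linarith)
        | (right; linarith)
  rcases hmax with h | h
  · have h3 : 0 ≤ (1 - |α|) ^ 2 := sq_nonneg _
    have h4 : |α| ^ 2 = α ^ 2 := sq_abs α
    have h5 : 0 ≤ R ^ 4 := by positivity
    nlinarith only [h, h1, h2, h3, h4, h5]
  · have hr : 0 ≤ |R| := abs_nonneg R
    have h5 : 0 ≤ 3 / 2 - 2 * |R| + 6 / 10 * |R| ^ 4 := by
      nlinarith only [sq_nonneg (|R| ^ 2 - 8855 / 10000), sq_nonneg (|R| - 941 / 1000)]
    rw [hR4] at h5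
    nlinarith only [h, h1, h2, h5, hα]

/-- Flipping a coordinate. -/
lemma avg_flip {n : ℕ} (i : Fin n) (F : (Fin n → ℤˣ) → ℝ) :
    avg n (fun x => F (x * Pi.mulSingle i (-1))) = avg n F := by
  unfold avg
  congr 1
  exact Equiv.sum_comp (Equiv.mulRight (Pi.mulSingle i (-1 : ℤˣ) : Fin n → ℤˣ)) F

lemma lin_split {n : ℕ} (a : Fin n → ℝ) (i : Fin n) (x : Fin n → ℤˣ) :
    lin a x = a i * ((x i : ℤ) : ℝ) + lin (Function.update a i 0) x := by
  unfold lin
  rw [← Finset.add_sum_erase _ _ (Finset.mem_univ i),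
    ← Finset.add_sum_erase _ (fun j => Function.update a i 0 j * ((x j : ℤ) : ℝ))
      (Finset.mem_univ i)]
  rw [Function.update_self, zero_mul, zero_add]
  congr 1
  refine Finset.sum_congr rfl (fun j hj => ?_)
  rw [Function.update_of_ne (Finset.ne_of_mem_erase hj)]

lemma lin_flip {n : ℕ} (a : Fin n → ℝ) (i : Fin n) (x : Fin n → ℤˣ) :
    lin (Function.update a i 0) (x * Pi.mulSingle i (-1)) = lin (Function.update a i 0) x := by
  unfold lin
  refine Finset.sum_congr rfl (fun j _ => ?_)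
  rcases eq_or_ne j i with h | h
  · subst h
    rw [Function.update_self, zero_mul, zero_mul]
  · rw [Pi.mul_apply, Pi.mulSingle_eq_of_ne h, mul_one]

lemma sum_update {n : ℕ} (a : Fin n → ℝ) (i : Fin n) :
    ∑ j, (Function.update a i 0 j) ^ 2 = ∑ j, a j ^ 2 - a i ^ 2 := by
  rw [← Finset.add_sum_erase _ (fun j => (Function.update a i 0 j) ^ 2) (Finset.mem_univ i),
    ← Finset.add_sum_erase _ (fun j => a j ^ 2) (Finset.mem_univ i)]
  rw [Function.update_self]
  have : ∑ j ∈ Finset.univ.erase i, (Function.update a i 0 j) ^ 2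
      = ∑ j ∈ Finset.univ.erase i, a j ^ 2 := by
    refine Finset.sum_congr rfl (fun j hj => ?_)
    rw [Function.update_of_ne (Finset.ne_of_mem_erase hj)]
  rw [this]; ring

/-- One large coefficient. -/
lemma fkn_large {n : ℕ} {g : (Fin n → ℤˣ) → ℝ} (hgc : ∀ x, g x = 1 ∨ g x = -1) {i : Fin n}
    (hi : 1 / 2 ≤ co n g i ^ 2) : 1 - |co n g i| ≤ 11 * (1 - W1 n g) := by
  set a := co n g with ha
  have habs := co_le_one hgc i
  rw [← ha] at habs
  have hW1 : W1 n g ≤ 1 := by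
    have := bessel n g
    rw [avg_sq_sign hgc] at this
    linarith [sq_nonneg (avg n g)]
  set a' := Function.update a i 0 with ha'
  set b := ∑ j, a' j ^ 2 with hb
  have hbW : b = W1 n g - a i ^ 2 := by rw [hb, ha', sum_update]; rfl
  have h1 := absl_le hgc
  rw [← ha] at h1
  have h2 : avg n (fun x => (|lin a x| - 1) ^ 2)
      = avg n (fun x => 1 / 2 * (|lin a x| - 1) ^ 2
        + 1 / 2 * (|lin a (x * Pi.mulSingle i (-1))| - 1) ^ 2) := by
    rw [avg_add, avg_mul_left, avg_mul_left, avg_flip i (fun x => (|lin a x| - 1) ^ 2)]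
    ring
  have h3 : avg n (fun x => (lin a' x) ^ 2 + (-(6 / 10)) * (lin a' x) ^ 4)
      ≤ avg n (fun x => 1 / 2 * (|lin a x| - 1) ^ 2
        + 1 / 2 * (|lin a (x * Pi.mulSingle i (-1))| - 1) ^ 2) := by
    refine avg_mono (fun x => ?_)
    rw [lin_split a i x, lin_split a i (x * Pi.mulSingle i (-1)), ← ha', lin_flip]
    have e : (((((x * Pi.mulSingle i (-1) : Fin n → ℤˣ)) i : ℤˣ) : ℤ) : ℝ) = -((x i : ℤ) : ℝ) := by
      rw [Pi.mul_apply, Pi.mulSingle_eq_same]; push_cast; ring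
    rw [e]
    have hα : 1 / 2 ≤ (a i * ((x i : ℤ) : ℝ)) ^ 2 := by
      rcases units_cases (x i) with h | h <;> rw [h] <;> push_cast <;> nlinarith only [hi]
    have h4 := pair_ge (R := lin a' x) hα
    have e2 : a i * -((x i : ℤ) : ℝ) = -(a i * ((x i : ℤ) : ℝ)) := by ring
    rw [e2]
    linarith only [h4]
  rw [avg_add, avg_mul_left, mom2, mom4] at h3
  have hq0 : 0 ≤ ∑ j, a' j ^ 4 := Finset.sum_nonneg (fun i _ => by positivity)
  have hb0 : 0 ≤ b := Finset.sum_nonneg (fun i _ => sq_nonneg _)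
  rw [← hb] at h3
  have hb1 : b ≤ 1 / 2 := by rw [hbW]; linarith
  have h5 : 1 / 10 * b ≤ 1 - W1 n g := by
    have h6 : b * b ≤ b * (1 / 2) := mul_le_mul_of_nonneg_left hb1 hb0
    nlinarith only [h1, h2, h3, hq0, h6]
  have h7 : 1 - |a i| ≤ 1 - a i ^ 2 := by
    have h8 : |a i| ^ 2 = a i ^ 2 := sq_abs _
    nlinarith only [h8, habs, abs_nonneg (a i)]
  linarith

/-- No large coefficient. -/
lemma fkn_small {n : ℕ} {g : (Fin n → ℤˣ) → ℝ} (hgc : ∀ x, g x = 1 ∨ g x = -1)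
    (hi : ∀ i, co n g i ^ 2 ≤ 1 / 2) : 1 / 100 ≤ 1 - W1 n g := by
  set a := co n g with ha
  have hW1 : W1 n g ≤ 1 := by
    have := bessel n g
    rw [avg_sq_sign hgc] at this
    linarith [sq_nonneg (avg n g)]
  have hW0 := W1_nonneg n g
  have hWs : ∑ i, a i ^ 2 = W1 n g := rfl
  have h1 := absl_le hgc
  rw [← ha] at h1
  have hq : ∑ i, a i ^ 4 ≤ 1 / 2 * W1 n g := by
    rw [← hWs, Finset.mul_sum]
    refine Finset.sum_le_sum (fun i _ => ?_)
    have := mul_le_mul_of_nonneg_right (hi i) (sq_nonneg (a i))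
    calc a i ^ 4 = a i ^ 2 * a i ^ 2 := by ring
      _ ≤ 1 / 2 * a i ^ 2 := this
  have h2 : avg n (fun x => ((lin a x) ^ 4 + (-2) * (lin a x) ^ 2) + 1)
      ≤ avg n (fun x => 36 * (|lin a x| - 1) ^ 2 + 1 / 25 * (lin a x) ^ 6) := by
    refine avg_mono (fun x => ?_)
    set l := lin a x
    have e1 : |l| ^ 2 = l ^ 2 := sq_abs l
    have e4 : l ^ 4 = |l| ^ 4 := by
      calc l ^ 4 = (l ^ 2) ^ 2 := by ring
        _ = (|l| ^ 2) ^ 2 := by rw [e1]
        _ = |l| ^ 4 := by ring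
    have e6 : l ^ 6 = |l| ^ 6 := by
      calc l ^ 6 = (l ^ 2) ^ 3 := by ring
        _ = (|l| ^ 2) ^ 3 := by rw [e1]
        _ = |l| ^ 6 := by ring
    rw [e4, e6, ← e1]
    set t := |l| with ht
    have ht0 : 0 ≤ t := abs_nonneg l
    have e : t ^ 4 + -2 * t ^ 2 + 1 = (t - 1) ^ 2 * (t + 1) ^ 2 := by ring
    rcases le_total t 5 with h | h
    · rw [e]
      have h3 : (t + 1) ^ 2 ≤ 36 := by nlinarith only [h, ht0]
      have h4 := mul_le_mul_of_nonneg_left h3 (sq_nonneg (t - 1))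
      have h5 : 0 ≤ t ^ 6 := by positivity
      linarith
    · have h3 : 25 * t ^ 4 ≤ t ^ 6 := by
        have h4 : 25 ≤ t ^ 2 := by nlinarith only [h]
        have h5 : 0 ≤ t ^ 4 := by positivity
        calc 25 * t ^ 4 ≤ t ^ 2 * t ^ 4 := mul_le_mul_of_nonneg_right h4 h5
          _ = t ^ 6 := by ring
      have h6 : 0 ≤ (t - 1) ^ 2 := sq_nonneg _
      nlinarith only [h3, h6, h]
  rw [avg_add, avg_add, avg_mul_left, avg_const, mom4, mom2, avg_add, avg_mul_left, avg_mul_left,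
    hWs] at h2
  have h3 := mom6 n a
  rw [hWs] at h3
  set W := W1 n g with hW
  have h4 : W ^ 3 ≤ 1 := pow_le_one₀ hW0 hW1
  have h5 : W * W ≤ 1 * W := mul_le_mul_of_nonneg_right hW1 hW0
  nlinarith only [h1, h2, h3, h4, hq, hW0, hW1, h5]

/-- The Friedgut-Kalai-Naor theorem. -/
theorem fkn {n : ℕ} (hn : 0 < n) {g : (Fin n → ℤˣ) → ℝ} (hgc : ∀ x, g x = 1 ∨ g x = -1) :
    ∃ i, 1 - |co n g i| ≤ 100 * (1 - W1 n g) := by
  have hW1 : W1 n g ≤ 1 := by
    have := bessel n g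
    rw [avg_sq_sign hgc] at this
    linarith [sq_nonneg (avg n g)]
  by_cases h : ∃ i, 1 / 2 ≤ co n g i ^ 2
  · obtain ⟨i, hi⟩ := h
    have := fkn_large hgc hi
    exact ⟨i, by linarith⟩
  · push Not at h
    have := fkn_small hgc (fun i => (h i).le)
    exact ⟨⟨0, hn⟩, by linarith [abs_nonneg (co n g ⟨0, hn⟩)]⟩

/-- The distance to a signed coordinate. -/
lemma prob_ne {n : ℕ} (f : (Fin n → ℤˣ) → ℤˣ) (i : Fin n) (s : ℤˣ) :
    (((Finset.univ.filter fun x : Fin n → ℤˣ => f x ≠ s * x i).card : ℝ)) / 2 ^ n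
      = (1 - ((s : ℤ) : ℝ) * co n (toR f) i) / 2 := by
  have h1 : ((s : ℤ) : ℝ) * co n (toR f) i
      = avg n (fun x => 1 + (-2) * (if f x ≠ s * x i then 1 else 0)) := by
    unfold co
    rw [← avg_mul_left]
    congr 1
    funext x
    unfold toR
    rcases units_cases (f x) with h | h <;> rcases units_cases (x i) with h' | h' <;>
      rcases units_cases s with h'' | h'' <;> rw [h, h', h''] <;> norm_num
  rw [h1, avg_add, avg_const, avg_mul_left]
  unfold avg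
  rw [Finset.sum_boole]
  rw [one_div, inv_pow]
  have : (2 : ℝ) ^ n ≠ 0 := by positivity
  field_simp
  ring

/-- **Dimension-free stability**: a function whose information is close to the bound is close to
a signed coordinate. -/
theorem stability {ε : ℝ} (h0 : 0 < ε) (h1 : ε < 1 / 2) : ∃ c : ℝ, 0 < c ∧
    ∀ (n : ℕ), 0 < n → ∀ f : (Fin n → ℤˣ) → ℤˣ, ∃ (i : Fin n) (s : ℤˣ),
      mutualInfo (outLaw n ε f) ≤ 1 - h2 ε
        - c * (((Finset.univ.filter fun x : Fin n → ℤˣ => f x ≠ s * x i).card : ℝ) / 2 ^ n) := by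
  obtain ⟨c, hc, hst⟩ := stability_W1 h0 h1
  refine ⟨c / 50, by positivity, fun n hn f => ?_⟩
  obtain ⟨i, hi⟩ := fkn hn (toR_cases f)
  obtain ⟨s, hs⟩ : ∃ s : ℤˣ, ((s : ℤ) : ℝ) * co n (toR f) i = |co n (toR f) i| := by
    rcases le_total 0 (co n (toR f) i) with h | h
    · exact ⟨1, by rw [abs_of_nonneg h]; push_cast; ring⟩
    · exact ⟨-1, by rw [abs_of_nonpos h]; push_cast; ring⟩
  refine ⟨i, s, ?_⟩
  rw [prob_ne, hs]
  have h2 := hst n f
  have h3 := mul_le_mul_of_nonneg_left hi hc.le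
  linarith

end Vale.Agent.P322.H903
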