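import Vale.Agent.P322.H903.GapB

/-! # P322: regime A with a quadratic gap; strong concavity; oscillation of the potentials -/

namespace Vale.Agent.P322.H903

open Real Filter Topology Set
open Vale.Agent.P322 Vale.Agent.P322.RegA

lemma poly_bound' {u d : ℝ} (hu0 : 0 ≤ u) (hu1 : u ≤ 1) (hd : d ≤ 1 / 4) :
    (1 - u) * (1 + u / 7) * ((6 + 6 * u + d) / 7) ≤ 8953 / 10000 :=
  poly_bound hu0 hu1 hd (by norm_num)

/-- gap constant of regime A. -/
noncomputable def kA (ρ : ℝ) : ℝ := 3 / 10000 * HH ρ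

/-- Regime A with a gap: from the scalar inequality. -/
theorem qcertA_of {ρ k : ℝ} (h0 : 0 ≤ ρ) (h1 : ρ < 1) (hk : (8960 / 10000 : ℝ) ≤ k)
    (hk1 : k ≤ 1) (hSA : RegA.SA ρ k) :
    QCert ρ (Vale.Agent.P322.SA ρ) (kA ρ) 3 := by
  intro μ δ hμ0 hδ0 hμδ hδ η hη
  set B := HH ρ with hB
  have hk0 : 0 ≤ k := by linarith only [hk]
  have hB0 : 0 < B := by
    rw [hB]
    have := HH_ge_sq (m := ρ) (by rw [abs_of_nonneg h0]; exact h1)
    have hl : 0 < Real.log 2 := Real.log_pos (by norm_num)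
    have h2 : 0 < 1 - ρ ^ 2 := by nlinarith only [h1, h0]
    have := mul_pos hl h2
    linarith
  have hμ1 : μ ≤ 1 := by linarith
  have hμsq : μ ^ 2 ≤ 1 := by nlinarith only [hμ0, hμ1]
  have hδsq : δ ^ 2 ≤ 1 / 4 := by nlinarith only [hδ0, hδ]
  set W := (1 - μ ^ 2) * (1 + μ ^ 2 / 7) with hW
  have hS : Vale.Agent.P322.SA ρ μ = B * W := by rw [SA_eq, hW]; ring
  have havg : (Vale.Agent.P322.SA ρ (μ + δ) + Vale.Agent.P322.SA ρ (μ - δ)) / 2
      = B * W - B * (δ ^ 2 * ((6 + 6 * μ ^ 2 + δ ^ 2) / 7)) := by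
    simp only [SA_eq, ← hB, hW]
    ring
  rw [havg, hS]
  rcases eq_or_lt_of_le (show 0 ≤ 1 - μ ^ 2 by linarith only [hμsq]) with hv | hv
  · -- `μ = 1`, `δ = 0`
    have hW0 : W = 0 := by rw [hW, ← hv]; ring
    have hμ : μ = 1 := by nlinarith only [hv, hμ0, hμ1]
    have hδ0' : δ = 0 := by linarith
    refine ⟨1, 0, 0, 0, by norm_num, le_rfl, by rw [hδ0']; norm_num, ?_, ?_⟩
    · intro m c hmc
      have := lin_pointwise (t := 0) h0 h1 hk0 hSA hmc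
      simp only [mul_zero, zero_mul, add_zero, ne_eq, OfNat.ofNat_ne_zero, not_false_eq_true,
        zero_pow, one_mul] at this ⊢
      linarith only [this]
    · rw [hδ0', hW0]; simp; exact hη.le
  · have hW0 : 0 < W := by rw [hW]; positivity
    have hWv : 1 - μ ^ 2 ≤ W := by
      rw [hW]; nlinarith only [hv, sq_nonneg μ, mul_nonneg hv.le (sq_nonneg μ)]
    have hW1 : W ≤ 1 := by rw [hW]; nlinarith only [sq_nonneg μ, hμsq, sq_nonneg (μ ^ 2)]
    -- multiplier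
    set t := δ / (B * W) with ht
    have hBW : 0 < B * W := mul_pos hB0 hW0
    have ht0 : 0 ≤ t := div_nonneg hδ0 hBW.le
    set s := k * B ^ 2 * t ^ 2 with hs
    have hs0 : 0 ≤ s := by (clear * - hk0 hB0; positivity)
    have hs1 : 0 < 1 + s := by linarith only [hs0]
    have hδt : δ = t * (B * W) := by rw [ht]; field_simp
    have hsW : s * W ^ 2 = k * δ ^ 2 := by rw [hs, hδt]; ring
    have hδW : δ ≤ W := by nlinarith only [hWv, hμδ, hμ0, hδ0, hμ1]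
    have hsle : s ≤ 1 := by
      by_contra hc
      have h3 : 1 * W ^ 2 < s * W ^ 2 := mul_lt_mul_of_pos_right (not_le.1 hc) (by positivity)
      have h4 : k * δ ^ 2 ≤ 1 * δ ^ 2 := mul_le_mul_of_nonneg_right hk1 (sq_nonneg _)
      have h5 : δ ^ 2 ≤ W ^ 2 := by gcongr
      linarith
    refine ⟨1 / (1 + s), 0, 0, 2 * k * B ^ 2 * t / (1 + s), by (clear * - hs1; positivity), ?_, ?_,
      ?_, ?_⟩
    · rw [div_le_one hs1]; linarith
    · have e : 1 - 1 / (1 + s) = s / (1 + s) := by field_simp; ring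
      rw [e]
      have h3 : s / (1 + s) ≤ s := div_le_self hs0 (by linarith)
      have h4 : (1 - μ ^ 2) ^ 2 ≤ W ^ 2 := by gcongr
      calc s / (1 + s) * (1 - μ ^ 2) ^ 2 ≤ s * W ^ 2 := by
            apply mul_le_mul h3 h4 (sq_nonneg _) hs0
        _ = k * δ ^ 2 := hsW
        _ ≤ 3 * δ ^ 2 := by nlinarith only [hk1, sq_nonneg δ]
    · intro m c hmc
      have h2 := lin_pointwise (t := t) h0 h1 hk0 hSA hmc
      rw [← hB, ← hs] at h2
      have h3 : 2 * k * B ^ 2 * t * c ≤ 2 * k * B ^ 2 * t * |c| := by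
        have h5 : 0 ≤ 2 * k * B ^ 2 * t := by (clear * - hk0 hB0 ht0; positivity)
        exact mul_le_mul_of_nonneg_left (le_abs_self c) h5
      have h6 : 1 / (1 + s) * hV 1 m c + 0 + 0 * m + 2 * k * B ^ 2 * t / (1 + s) * c
          = (hV 1 m c + 2 * k * B ^ 2 * t * c) / (1 + s) := by
        field_simp
        ring
      rw [h6, div_le_iff₀ hs1]
      linarith only [h2, h3]
    · have hpoly := poly_bound' (u := μ ^ 2) (d := δ ^ 2) (sq_nonneg μ) hμsq hδsq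
      rw [← hW] at hpoly
      set G := (6 + 6 * μ ^ 2 + δ ^ 2) / 7 with hG
      have hδ2 : δ ^ 2 = t ^ 2 * (B * W) ^ 2 := by rw [hδt]; ring
      have h7 : 1 / (1 + s) * (B * W - B * (δ ^ 2 * G)) + 0 + 0 * μ
          + 2 * k * B ^ 2 * t / (1 + s) * δ
          = ((B * W - B * (δ ^ 2 * G)) + 2 * k * B ^ 2 * t * δ) / (1 + s) := by
        field_simp
        ring
      have h8 : (B * W + kA ρ * δ ^ 2) * (1 + s)
          ≤ (B * W - B * (δ ^ 2 * G)) + 2 * k * B ^ 2 * t * δ := by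
        have hP : 0 ≤ B ^ 3 * t ^ 2 * W := by (clear * - hB0 hW0; positivity)
        have h9 : B ^ 3 * t ^ 2 * W * (W * G) ≤ B ^ 3 * t ^ 2 * W * (k - 7 / 10000) :=
          mul_le_mul_of_nonneg_left (by linarith only [hpoly, hk]) hP
        have h10 : kA ρ * δ ^ 2 * (1 + s) ≤ kA ρ * δ ^ 2 * 2 := by
          refine mul_le_mul_of_nonneg_left (by linarith) ?_
          have : 0 ≤ kA ρ := by unfold kA; positivity
          positivity
        have h11 : kA ρ * δ ^ 2 * 2 ≤ B ^ 3 * t ^ 2 * W * (7 / 10000) := by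
          have e : kA ρ * δ ^ 2 * 2 = 6 / 10000 * (B ^ 3 * t ^ 2 * W * W) := by
            rw [hδ2]; unfold kA; rw [← hB]; ring
          rw [e]
          have h12 : B ^ 3 * t ^ 2 * W * W ≤ B ^ 3 * t ^ 2 * W * 1 :=
            mul_le_mul_of_nonneg_left hW1 hP
          linarith
        have e1 : B * W * (1 + s) = B * W + B ^ 3 * t ^ 2 * W * k := by rw [hs]; ring
        have e2 : B * (δ ^ 2 * G) = B ^ 3 * t ^ 2 * W * (W * G) := by rw [hδ2]; ring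
        have e3 : 2 * k * B ^ 2 * t * δ = 2 * (B ^ 3 * t ^ 2 * W * k) := by
          calc 2 * k * B ^ 2 * t * δ = 2 * k * B ^ 2 * t * (t * (B * W)) := by rw [← hδt]
            _ = _ := by ring
        rw [e2, e3, add_mul, e1]
        linarith only [h9, h10, h11]
      rw [h7]
      have h13 := (le_div_iff₀ hs1).2 h8
      linarith only [h13, hη]

/-- The scalar inequality of regime A for `ρ ∈ [7/10, 1)`. -/
lemma scalarA {ρ : ℝ} (h1 : 7 / 10 ≤ ρ) (h2 : ρ < 1) : RegA.SA ρ (112 / 125) := by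
  obtain ⟨e1, e2⟩ := SA2 h1 h2
  have hρ0 : 0 ≤ ρ := by linarith
  intro x hx0 hx1
  have h := SA_of_point (x₀ := (1 + ρ) / 2) (k := 112 / 125) hρ0 h2 (by linarith only [h1])
    (by linarith only [h2]) (by norm_num) (by norm_num) (sa_hg h1 h2) (by
      refine le_trans (le_of_eq ?_) e1
      rw [atx_def, atx_def]
      ring) (by
      refine le_trans e2 (le_of_eq ?_)
      rw [atx_def, atx_def]
      ring) x hx0 hx1
  have e1 : HH ρ = Real.log 2 - ph ρ := RegA.HH_ph ρ (by rw [abs_of_nonneg hρ0]; exact h2.le)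
  have e2 : HH x = Real.log 2 - ph x := RegA.HH_ph x (by rw [abs_of_nonneg hx0]; exact hx1)
  have e3 : HH (ρ * x) = Real.log 2 - ph (ρ * x) := by
    refine RegA.HH_ph _ ?_
    rw [abs_of_nonneg (mul_nonneg hρ0 hx0)]
    nlinarith only [h2, hρ0, hx1]
  have e4 : Real.log 2 - (Real.log 2 - HH ρ) * x ^ 2 = Real.log 2 - ph ρ * x ^ 2 := by
    rw [e1]; ring
  have e5 : HH (ρ * x) - HH x = ph x - ph (ρ * x) := by rw [e2, e3]; ring
  rw [e4, e5] at h
  exact h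

/-- **Regime A with a gap.** -/
theorem qcertA {ρ : ℝ} (h1 : 7 / 10 ≤ ρ) (h2 : ρ < 1) :
    QCert ρ (Vale.Agent.P322.SA ρ) (kA ρ) 3 :=
  qcertA_of (by linarith) h2 (by norm_num) (by norm_num) (scalarA h1 h2)

/-! ### Strong concavity -/

lemma loss_ge {ρ y : ℝ} (h0 : 0 ≤ ρ) (h1 : ρ ≤ 1) (hy : |y| < 1) :
    (1 - ρ ^ 2) / 2 * y ^ 2 ≤ ph y - ph (ρ * y) := by
  have h := le_hasSum (hasSum_loss h0 h1 hy) 0 (fun k _ => by
    have e : y ^ (2 * k + 2) = (y ^ 2) ^ (k + 1) := by rw [← pow_mul]; ring_nf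
    rw [e]
    have : ρ ^ (2 * k + 2) ≤ 1 := pow_le_one₀ h0 h1
    have h2 : 0 ≤ 1 - ρ ^ (2 * k + 2) := by linarith
    positivity)
  norm_num at h
  linarith

/-- Strong concavity of the entropy, in the open diamond. -/
lemma hV_gain_open {ρ m c : ℝ} (h0 : 0 ≤ ρ) (h1 : ρ ≤ 1) (hmc : |m| + |c| < 1) :
    (1 - ρ ^ 2) / 2 * c ^ 2 ≤ hV ρ m c - hV 1 m c := by
  have hm := abs_le.mp (le_refl |m|)
  have hx := abs_le.mp (le_refl |c|)
  have hm0 := abs_nonneg m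
  have hc0 := abs_nonneg c
  have p0 : 0 < 1 + m := by linarith
  have q0 : 0 < 1 - m := by linarith
  have hρc : |m| + |ρ * c| < 1 := by
    rw [abs_mul, abs_of_nonneg h0]
    have : ρ * |c| ≤ 1 * |c| := mul_le_mul_of_nonneg_right h1 hc0
    linarith
  have hρ1 : |m| + |1 * c| < 1 := by rw [one_mul]; exact hmc
  have hp : |c / (1 + m)| < 1 := by
    rw [abs_div, abs_of_pos p0, div_lt_one p0]; linarith
  have hq : |c / (1 - m)| < 1 := by
    rw [abs_div, abs_of_pos q0, div_lt_one q0]; linarith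
  rw [hV_pers hρc, hV_pers hρ1]
  have s1 := mul_le_mul_of_nonneg_left (loss_ge h0 h1 hp) (show 0 ≤ (1 + m) / 2 by linarith)
  have s2 := mul_le_mul_of_nonneg_left (loss_ge h0 h1 hq) (show 0 ≤ (1 - m) / 2 by linarith)
  have e1 : ρ * c / (1 + m) = ρ * (c / (1 + m)) := by ring
  have e2 : ρ * c / (1 - m) = ρ * (c / (1 - m)) := by ring
  have e3 : 1 * c / (1 + m) = c / (1 + m) := by ring
  have e4 : 1 * c / (1 - m) = c / (1 - m) := by ring
  rw [e1, e2, e3, e4]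
  have v0 : 0 < 1 - m ^ 2 := by nlinarith only [p0, q0]
  have e5 : (1 + m) / 2 * ((1 - ρ ^ 2) / 2 * (c / (1 + m)) ^ 2)
      + (1 - m) / 2 * ((1 - ρ ^ 2) / 2 * (c / (1 - m)) ^ 2)
      = (1 - ρ ^ 2) / 2 * c ^ 2 / (1 - m ^ 2) := by
    have : 1 - m ^ 2 = (1 + m) * (1 - m) := by ring
    rw [this]
    field_simp
    ring
  have hρ2 : 0 ≤ 1 - ρ ^ 2 := by nlinarith only [h0, h1]
  have h6 : (1 - ρ ^ 2) / 2 * c ^ 2 ≤ (1 - ρ ^ 2) / 2 * c ^ 2 / (1 - m ^ 2) := by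
    rw [le_div_iff₀ v0]
    have : 0 ≤ (1 - ρ ^ 2) / 2 * c ^ 2 := by positivity
    nlinarith only [this, sq_nonneg m, mul_nonneg this (sq_nonneg m)]
  linarith only [s1, s2, e5, h6]

/-- Strong concavity of the entropy, in the closed diamond. -/
lemma hV_gain {ρ m c : ℝ} (h0 : 0 ≤ ρ) (h1 : ρ ≤ 1) (hmc : |m| + |c| ≤ 1) :
    (1 - ρ ^ 2) / 2 * c ^ 2 ≤ hV ρ m c - hV 1 m c := by
  have hcont : Continuous (fun s : ℝ => hV ρ (s * m) (s * c) - hV 1 (s * m) (s * c)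
      - (1 - ρ ^ 2) / 2 * (s * c) ^ 2) := by
    unfold hV
    have := cont_HH
    fun_prop
  have hlim : Tendsto (fun s : ℝ => hV ρ (s * m) (s * c) - hV 1 (s * m) (s * c)
      - (1 - ρ ^ 2) / 2 * (s * c) ^ 2) (𝓝[<] 1)
      (𝓝 (hV ρ (1 * m) (1 * c) - hV 1 (1 * m) (1 * c)
      - (1 - ρ ^ 2) / 2 * (1 * c) ^ 2)) :=
    (hcont.tendsto 1).mono_left nhdsWithin_le_nhds
  have hev : ∀ᶠ s : ℝ in 𝓝[<] 1, 0 ≤ hV ρ (s * m) (s * c) - hV 1 (s * m) (s * c)
      - (1 - ρ ^ 2) / 2 * (s * c) ^ 2 := by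
    have h2 : ∀ᶠ s : ℝ in 𝓝[<] 1, 0 < s := by
      apply mem_nhdsWithin_of_mem_nhds
      exact lt_mem_nhds one_pos
    filter_upwards [h2, self_mem_nhdsWithin] with s hs hs1
    have hs1' : s < 1 := hs1
    have : |s * m| + |s * c| < 1 := by
      rw [abs_mul, abs_mul, abs_of_pos hs, ← mul_add]
      calc s * (|m| + |c|) ≤ s * 1 := mul_le_mul_of_nonneg_left hmc hs.le
        _ < 1 := by linarith
    have := hV_gain_open h0 h1 this
    linarith
  have := ge_of_tendsto hlim hev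
  simp only [one_mul] at this
  linarith

/-- Oscillation of the entropy, in the open diamond. -/
lemma hV_osc_open {m c : ℝ} (hmc : |m| + |c| < 1) :
    (1 - m ^ 2) * (HH m - hV 1 m c) ≤ c ^ 2 := by
  have hm := abs_le.mp (le_refl |m|)
  have hx := abs_le.mp (le_refl |c|)
  have hm0 := abs_nonneg m
  have hc0 := abs_nonneg c
  have p0 : 0 < 1 + m := by linarith
  have q0 : 0 < 1 - m := by linarith
  have v0 : 0 < 1 - m ^ 2 := by nlinarith only [p0, q0]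
  have hρ1 : |m| + |1 * c| < 1 := by rw [one_mul]; exact hmc
  have hp : |c / (1 + m)| < 1 := by
    rw [abs_div, abs_of_pos p0, div_lt_one p0]; linarith
  have hq : |c / (1 - m)| < 1 := by
    rw [abs_div, abs_of_pos q0, div_lt_one q0]; linarith
  rw [hV_pers hρ1]
  have s1 := mul_le_mul_of_nonneg_left (ph_le_sq hp) (show 0 ≤ (1 + m) / 2 by linarith)
  have s2 := mul_le_mul_of_nonneg_left (ph_le_sq hq) (show 0 ≤ (1 - m) / 2 by linarith)
  have e3 : 1 * c / (1 + m) = c / (1 + m) := by ring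
  have e4 : 1 * c / (1 - m) = c / (1 - m) := by ring
  rw [e3, e4]
  have e5 : (1 + m) / 2 * (Real.log 2 * (c / (1 + m)) ^ 2)
      + (1 - m) / 2 * (Real.log 2 * (c / (1 - m)) ^ 2)
      = Real.log 2 * c ^ 2 / (1 - m ^ 2) := by
    have : 1 - m ^ 2 = (1 + m) * (1 - m) := by ring
    rw [this]
    field_simp
    ring
  have h6 : HH m - (HH m - ((1 + m) / 2 * ph (c / (1 + m)) + (1 - m) / 2 * ph (c / (1 - m))))
      ≤ Real.log 2 * c ^ 2 / (1 - m ^ 2) := by linarith only [s1, s2, e5]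
  have h7 := mul_le_mul_of_nonneg_left h6 v0.le
  have e6 : (1 - m ^ 2) * (Real.log 2 * c ^ 2 / (1 - m ^ 2)) = Real.log 2 * c ^ 2 := by
    field_simp
  rw [e6] at h7
  have hl := Real.log_two_lt_d9
  nlinarith only [h7, hl, sq_nonneg c]

/-- Oscillation of the entropy, in the closed diamond. -/
lemma hV_osc {m c : ℝ} (hmc : |m| + |c| ≤ 1) :
    (1 - m ^ 2) * (HH m - hV 1 m c) ≤ c ^ 2 := by
  have hcont : Continuous (fun s : ℝ => (s * c) ^ 2
      - (1 - (s * m) ^ 2) * (HH (s * m) - hV 1 (s * m) (s * c))) := by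
    unfold hV
    have := cont_HH
    fun_prop
  have hlim : Tendsto (fun s : ℝ => (s * c) ^ 2
      - (1 - (s * m) ^ 2) * (HH (s * m) - hV 1 (s * m) (s * c))) (𝓝[<] 1)
      (𝓝 ((1 * c) ^ 2 - (1 - (1 * m) ^ 2) * (HH (1 * m) - hV 1 (1 * m) (1 * c)))) :=
    (hcont.tendsto 1).mono_left nhdsWithin_le_nhds
  have hev : ∀ᶠ s : ℝ in 𝓝[<] 1, 0 ≤ (s * c) ^ 2
      - (1 - (s * m) ^ 2) * (HH (s * m) - hV 1 (s * m) (s * c)) := by
    have h2 : ∀ᶠ s : ℝ in 𝓝[<] 1, 0 < s := by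
      apply mem_nhdsWithin_of_mem_nhds
      exact lt_mem_nhds one_pos
    filter_upwards [h2, self_mem_nhdsWithin] with s hs hs1
    have hs1' : s < 1 := hs1
    have : |s * m| + |s * c| < 1 := by
      rw [abs_mul, abs_mul, abs_of_pos hs, ← mul_add]
      calc s * (|m| + |c|) ≤ s * 1 := mul_le_mul_of_nonneg_left hmc hs.le
        _ < 1 := by linarith
    have := hV_osc_open this
    linarith
  have := ge_of_tendsto hlim hev
  simp only [one_mul] at this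
  linarith

/-- Oscillation of the potential of regime B. -/
lemma osc_SB {ρ μ δ : ℝ} (h0 : 0 ≤ ρ) (h1 : ρ ≤ 1) (h : |μ| + |δ| ≤ 1) :
    (1 - μ ^ 2) * (SB ρ μ - (SB ρ (μ + δ) + SB ρ (μ - δ)) / 2) ≤ 3 * δ ^ 2 := by
  rw [SB_avg, SB_eq]
  have h2 := hV_osc h
  have hρ2 : 0 ≤ 1 - ρ ^ 2 := by nlinarith only [h0, h1]
  have hρ2' : 1 - ρ ^ 2 ≤ 1 := by nlinarith only [h0, h1]
  have hv0 : 0 ≤ 1 - μ ^ 2 := by
    have : |μ| ≤ 1 := by linarith [abs_nonneg δ]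
    have : μ ^ 2 ≤ 1 := by rw [sq_le_one_iff_abs_le_one]; exact this
    linarith
  have hv1 : 1 - μ ^ 2 ≤ 1 := by nlinarith only [sq_nonneg μ]
  have hb : bB ρ ≤ 1 := by
    rw [bB_eq]
    have a1 := HH_le_log_two ρ
    have a2 := Real.log_two_lt_d9
    have a3 := Real.log_two_gt_d9
    have a4 : 0 ≤ (1 - ρ ^ 2) * Real.log 2 := by positivity
    linarith
  have h3 := mul_le_mul_of_nonneg_left h2 hρ2
  have h4 : (1 - ρ ^ 2) * δ ^ 2 ≤ 1 * δ ^ 2 := mul_le_mul_of_nonneg_right hρ2' (sq_nonneg _)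
  have h5 : (1 - μ ^ 2) * δ ^ 2 * bB ρ ≤ (1 - μ ^ 2) * δ ^ 2 * 1 :=
    mul_le_mul_of_nonneg_left hb (by positivity)
  have h6 : (1 - μ ^ 2) * δ ^ 2 ≤ 1 * δ ^ 2 := mul_le_mul_of_nonneg_right hv1 (sq_nonneg _)
  have h7 := sq_nonneg δ
  linarith only [h3, h4, h5, h6, h7]

/-- Oscillation of the potential of regime A. -/
lemma osc_SA {ρ μ δ : ℝ} (hρ : |ρ| ≤ 1) (h : |μ| + |δ| ≤ 1) :
    (1 - μ ^ 2) * (Vale.Agent.P322.SA ρ μ
      - (Vale.Agent.P322.SA ρ (μ + δ) + Vale.Agent.P322.SA ρ (μ - δ)) / 2) ≤ 3 * δ ^ 2 := by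
  have hμ : μ ^ 2 ≤ 1 := by
    rw [sq_le_one_iff_abs_le_one]; linarith [abs_nonneg δ]
  have hδ : δ ^ 2 ≤ 1 := by
    rw [sq_le_one_iff_abs_le_one]; linarith [abs_nonneg μ]
  have hB0 := HH_nn hρ
  have hB1 : HH ρ ≤ 1 := by
    have := HH_le_log_two ρ
    have := Real.log_two_lt_d9
    linarith
  have e : Vale.Agent.P322.SA ρ μ
      - (Vale.Agent.P322.SA ρ (μ + δ) + Vale.Agent.P322.SA ρ (μ - δ)) / 2
      = HH ρ * (δ ^ 2 * ((6 + 6 * μ ^ 2 + δ ^ 2) / 7)) := by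
    simp only [SA_eq]; ring
  rw [e]
  have h1 : (6 + 6 * μ ^ 2 + δ ^ 2) / 7 ≤ 2 := by linarith
  have h2 : δ ^ 2 * ((6 + 6 * μ ^ 2 + δ ^ 2) / 7) ≤ δ ^ 2 * 2 :=
    mul_le_mul_of_nonneg_left h1 (sq_nonneg _)
  have h3 : 0 ≤ δ ^ 2 * ((6 + 6 * μ ^ 2 + δ ^ 2) / 7) := by positivity
  have h4 : HH ρ * (δ ^ 2 * ((6 + 6 * μ ^ 2 + δ ^ 2) / 7))
      ≤ 1 * (δ ^ 2 * ((6 + 6 * μ ^ 2 + δ ^ 2) / 7)) := mul_le_mul_of_nonneg_right hB1 h3
  have h5 : 0 ≤ HH ρ * (δ ^ 2 * ((6 + 6 * μ ^ 2 + δ ^ 2) / 7)) := by positivity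
  have h6 : (1 - μ ^ 2) * (HH ρ * (δ ^ 2 * ((6 + 6 * μ ^ 2 + δ ^ 2) / 7)))
      ≤ 1 * (HH ρ * (δ ^ 2 * ((6 + 6 * μ ^ 2 + δ ^ 2) / 7))) :=
    mul_le_mul_of_nonneg_right (by linarith [sq_nonneg μ]) h5
  have h7 := sq_nonneg δ
  linarith

end Vale.Agent.P322.H903
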