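import Vale.Agent.P322.H880.Deficit

/-! # P322: regime B with a quadratic gap -/

namespace Vale.Agent.P322.H903

open Real Filter Topology Set
open Vale.Agent.P322 Vale.Agent.P322.RegA Vale.Agent.P322.MonoT

lemma G1_le' : G1 (3 / 4) ≤ 15325 / 100000 := by
  unfold G1
  rw [log_quarters.1, log_quarters.2, div_le_iff₀ (by norm_num)]
  have h1 := log7_gt
  have h2 := Real.log_two_lt_d9
  norm_num
  linarith

lemma k1_diff_le' {ρ : ℝ} (h0 : 0 < ρ) (hρ : ρ ≤ 3 / 4) :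
    k1 ρ - k1 (3 / 4) + ((3 / 4 : ℝ) ^ 2 - ρ ^ 2) * (5 / 100000)
      ≤ ((3 / 4 : ℝ) ^ 2 - ρ ^ 2) * (1533 / 10000) := by
  have hs0 : 0 ≤ (3 / 4 : ℝ) ^ 2 - ρ ^ 2 := by nlinarith only [hρ, h0]
  have h2 := q_upper h0 hρ (by norm_num)
  have h3 := mul_le_mul_of_nonneg_left G1_le' hs0
  unfold k1
  linarith only [h2, h3]

/-- The scalar inequality of regime B with a gap. -/
lemma ineqB_gap {ρ μ δ : ℝ} (h0 : 0 < ρ) (hρ : ρ ≤ 3 / 4) (hμ : 0 ≤ μ) (hδ : 0 < δ)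
    (hμδ : μ + δ < 1) (hδ2 : δ ≤ 1 / 2) :
    NN μ (ρ * δ) * Yf ρ μ δ
      + ((3 / 4 : ℝ) ^ 2 - ρ ^ 2) * (5 / 100000) * (NN μ (ρ * δ) * δ ^ 2)
      ≤ NN μ δ * Xf ρ μ δ := by
  have hμ1 : μ < 1 := by linarith
  have h34 := ineqB34_of_II34 hμ hδ hμδ (II0_34 hμ hδ hμδ.le hδ2)
  rw [ineqB_iff (by norm_num) (by norm_num) hμ hδ hμδ] at h34
  have hkey := key hμ hδ hμδ hδ2
  have hs0 : 0 ≤ (3 / 4 : ℝ) ^ 2 - ρ ^ 2 := by nlinarith only [hρ, h0]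
  have hρδ : ρ * δ ≤ 3 / 4 * δ := by nlinarith only [hρ, hδ]
  have hρδ0 : 0 ≤ ρ * δ := by positivity
  have hN : ((3 / 4 : ℝ) ^ 2 - ρ ^ 2) * (δ ^ 2 / (2 * (1 + μ) ^ 2))
      ≤ NN μ (3 / 4 * δ) - NN μ (ρ * δ) := by
    have := NN_diff hμ hρδ0 hρδ (by linarith only [hδ, hμδ])
    refine le_trans (le_of_eq ?_) this
    ring
  have eX : Xf ρ μ δ = Xf (3 / 4) μ δ - (1 - μ ^ 2) * (k1 ρ - k1 (3 / 4))
      + (Kf μ (3 / 4 * δ) / (3 / 4) ^ 2 - Kf μ (ρ * δ) / ρ ^ 2) := by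
    unfold Xf; ring
  have eY : Yf ρ μ δ = Yf (3 / 4) μ δ - (1 - μ ^ 2 - δ ^ 2) * (k1 ρ - k1 (3 / 4)) := by
    unfold Yf; ring
  have hel := el_nonneg hμ hμ1
  have hmono1 : NN μ (ρ * δ) ≤ NN μ (3 / 4 * δ) :=
    NN_mono hμ hρδ0 hρδ (by linarith only [hδ, hμδ])
  have hmono2 : NN μ (3 / 4 * δ) ≤ NN μ δ :=
    NN_mono hμ (by positivity) (by linarith only [hδ]) hμδ
  have hVnn : 0 ≤ 1 - μ ^ 2 := by nlinarith only [hδ, hμδ, hμ]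
  have h := alg h34 hkey hs0 hVnn (sq_nonneg δ) (Yf_nonneg hμ hδ hμδ)
    hel hN hmono2 hmono1
    (el_le_NN hμ hρδ0 (by linarith only [hδ, hμδ, hρδ]))
    (Kf_diff h0 hρ hμ hδ hμδ) (k1_diff_le' h0 hρ)
  rw [eX, eY]
  have hpos : 0 ≤ ((3 / 4 : ℝ) ^ 2 - ρ ^ 2) * (5 / 100000)
      * ((NN μ δ - NN μ (ρ * δ)) * (1 - μ ^ 2)) :=
    mul_nonneg (by positivity) (mul_nonneg (by linarith) hVnn)
  linarith only [h, hpos]

/-- Bounds of the multiplier. -/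
lemma theta_bounds {ρ μ r : ℝ} (h0 : 0 < ρ) (hρ : ρ ≤ 3 / 4) (hμ : 0 ≤ μ) (hr : 0 < r)
    (hμr : μ + r < 1) (hr2 : r ≤ 1 / 2) :
    1 / 3 ≤ thC ρ μ r ∧ thC ρ μ r ≤ 1 ∧ (1 - thC ρ μ r) * (1 - μ ^ 2) ^ 2 ≤ 3 * r ^ 2 := by
  have hμ1 : μ < 1 := by linarith
  have a1 : 0 < 1 + μ := by linarith
  have hN : 0 < NN μ r := NN_pos hμ hr.le hμr
  have hth := thC_nonneg h0.le (by linarith : ρ ≤ 1) hμ hr.le hμr
  have hth1 := thC_le_one h0.le (by linarith : ρ ≤ 1) hμ hr.le hμr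
  have hρr : ρ * r ≤ r := by nlinarith only [hρ, hr]
  have hel : (1 - μ) / 2 ≤ el μ := by
    have h := Real.log_le_sub_one_of_pos (show 0 < (1 + μ) / 2 by positivity)
    rw [Real.log_div a1.ne' (by norm_num)] at h
    unfold el
    linarith
  have h1 := el_le_NN hμ hr.le hμr
  have h2 := el_le_NN hμ (show 0 ≤ ρ * r by positivity) (by linarith)
  have hx0 : 0 ≤ r ^ 2 / (1 + μ) ^ 2 := by positivity
  have hx1 : r ^ 2 / (1 + μ) ^ 2 ≤ r ^ 2 := by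
    rw [div_le_iff₀ (by positivity)]
    nlinarith only [hμ, sq_nonneg r, mul_nonneg (sq_nonneg r) hμ, mul_nonneg (sq_nonneg r) (sq_nonneg μ)]
  have hr4 : r ^ 2 ≤ 1 / 4 := by nlinarith only [hr, hr2]
  have hup : NN μ r ≤ el μ + 2 / 3 * r ^ 2 := by
    rw [NN_el a1 (by linarith) (by linarith)]
    have h3 := Real.one_sub_inv_le_log_of_pos (show 0 < 1 - r ^ 2 / (1 + μ) ^ 2 by linarith)
    have h4 : (1 - r ^ 2 / (1 + μ) ^ 2)⁻¹ ≤ 1 + 4 / 3 * r ^ 2 := by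
      rw [inv_le_comm₀ (by linarith) (by positivity)]
      rw [inv_le_iff_one_le_mul₀ (by positivity)]
      nlinarith only [hx0, hx1, hr4, sq_nonneg r]
    linarith
  have hdiff : (1 - thC ρ μ r) * NN μ r ≤ 2 / 3 * r ^ 2 := by
    have e : (1 - thC ρ μ r) * NN μ r = NN μ r - NN μ (ρ * r) := by
      rw [thC_eq]; field_simp
    rw [e]; linarith
  have hm : (1 - thC ρ μ r) * ((1 - μ) / 2) ≤ 2 / 3 * r ^ 2 :=
    le_trans (mul_le_mul_of_nonneg_left (by linarith) (by linarith)) hdiff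
  have hrm : r ^ 2 ≤ 1 / 2 * (1 - μ) := by nlinarith only [hr, hr2, hμr]
  refine ⟨?_, hth1, ?_⟩
  · by_contra hc
    have : (2 / 3 : ℝ) * (1 - μ) < (1 - thC ρ μ r) * (1 - μ) :=
      mul_lt_mul_of_pos_right (by linarith [not_le.1 hc]) (by linarith)
    linarith
  · have h5 : (1 - μ) * (1 + μ) ^ 2 ≤ 32 / 27 := by
      nlinarith only [sq_nonneg (3 * μ - 1), hμ, mul_nonneg hμ (sq_nonneg (3 * μ - 1)),
        mul_nonneg (show (0:ℝ) ≤ 5 / 3 + μ by linarith) (sq_nonneg (μ - 1 / 3))]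
    have h6 : 0 ≤ (1 - μ) * (1 + μ) ^ 2 := by
      have : 0 ≤ 1 - μ := by linarith
      positivity
    have h7 : (1 - thC ρ μ r) * (1 - μ) ≤ 4 / 3 * r ^ 2 := by linarith
    calc (1 - thC ρ μ r) * (1 - μ ^ 2) ^ 2
        = ((1 - thC ρ μ r) * (1 - μ)) * ((1 - μ) * (1 + μ) ^ 2) := by ring
      _ ≤ (4 / 3 * r ^ 2) * ((1 - μ) * (1 + μ) ^ 2) := mul_le_mul_of_nonneg_right h7 h6
      _ ≤ (4 / 3 * r ^ 2) * (32 / 27) := mul_le_mul_of_nonneg_left h5 (by positivity)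
      _ ≤ 3 * r ^ 2 := by nlinarith only [sq_nonneg r]

lemma continuous_SB (ρ : ℝ) : Continuous (SB ρ) := by
  have := continuous_HH
  have e : SB ρ = fun μ => (1 - ρ ^ 2) * HH μ + bB ρ * (1 - μ ^ 2) := by
    funext μ; exact SB_eq ρ μ
  rw [e]
  fun_prop

/-- Certificates of a potential with a quadratic gap and a control of the multiplier. -/
def QCert (ρ : ℝ) (S : ℝ → ℝ) (κ C : ℝ) : Prop :=
  ∀ μ δ : ℝ, 0 ≤ μ → 0 ≤ δ → μ + δ ≤ 1 → δ ≤ 1 / 2 → ∀ η : ℝ, 0 < η → ∃ θ q0 q1 q2 : ℝ,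
    0 ≤ θ ∧ θ ≤ 1 ∧ (1 - θ) * (1 - μ ^ 2) ^ 2 ≤ C * δ ^ 2 ∧
    (∀ m c : ℝ, |m| + |c| ≤ 1 → θ * hV 1 m c + q0 + q1 * m + q2 * c ≤ hV ρ m c) ∧
    S μ + κ * δ ^ 2 ≤ θ * ((S (μ + δ) + S (μ - δ)) / 2) + q0 + q1 * μ + q2 * δ + η

/-- gap constant of regime B. -/
noncomputable def kB (ρ : ℝ) : ℝ := ρ ^ 2 * (((3 / 4 : ℝ) ^ 2 - ρ ^ 2) * (5 / 100000)) / 3

/-- Interior gap, in terms of `LBmd`. -/
lemma LB_gap {ρ μ r : ℝ} (h0 : 0 < ρ) (hρ : ρ ≤ 3 / 4) (hμ : 0 ≤ μ) (hr : 0 < r)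
    (hμr : μ + r < 1) (hr2 : r ≤ 1 / 2) :
    SB ρ μ + kB ρ * r ^ 2 ≤ LBmd ρ ((SB ρ (μ + r) + SB ρ (μ - r)) / 2) μ r := by
  obtain ⟨t1, -, -⟩ := theta_bounds h0 hρ hμ hr hμr hr2
  have hN : 0 < NN μ r := NN_pos hμ hr.le hμr
  have hg := ineqB_gap h0 hρ hμ hr hμr hr2
  have hs0 : 0 ≤ (3 / 4 : ℝ) ^ 2 - ρ ^ 2 := by nlinarith only [hρ, h0]
  have e1 : hV 1 μ r = HH μ - Kf μ r := by
    rw [hV_Kf (by rw [one_mul, abs_of_nonneg hμ, abs_of_pos hr]; exact hμr), one_mul]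
  have hρr : ρ * r < r := by nlinarith only [hρ, hr]
  have e2 : hV ρ μ r = HH μ - Kf μ (ρ * r) := by
    rw [hV_Kf (by rw [abs_of_nonneg hμ, abs_of_pos (by positivity)]; linarith)]
  have hθN : thC ρ μ r * NN μ r = NN μ (ρ * r) := by rw [thC_eq]; field_simp
  have hg2 : thC ρ μ r * Yf ρ μ r + ((3 / 4 : ℝ) ^ 2 - ρ ^ 2) * (5 / 100000)
      * (thC ρ μ r * r ^ 2) ≤ Xf ρ μ r := by
    rw [← hθN] at hg
    have : NN μ r * (thC ρ μ r * Yf ρ μ r + ((3 / 4 : ℝ) ^ 2 - ρ ^ 2) * (5 / 100000)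
      * (thC ρ μ r * r ^ 2)) ≤ NN μ r * Xf ρ μ r := by linarith only [hg]
    exact le_of_mul_le_mul_left this hN
  have hρ2 : (0 : ℝ) < ρ ^ 2 := by positivity
  have hb := bB_k1 h0 (by linarith : ρ < 1)
  have hX : hV ρ μ r - (1 - ρ ^ 2) * HH μ - bB ρ * (1 - μ ^ 2) = ρ ^ 2 * Xf ρ μ r := by
    unfold Xf
    rw [hb, e2]
    field_simp
    ring
  have hY : ρ ^ 2 * hV 1 μ r - bB ρ * (1 - μ ^ 2 - r ^ 2) = ρ ^ 2 * Yf ρ μ r := by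
    unfold Yf
    rw [hb, e1]
    ring
  rw [LBmd_eq, SB_avg, SB_eq]
  have h3 := mul_le_mul_of_nonneg_left hg2 hρ2.le
  have h4 : kB ρ * r ^ 2 ≤ ρ ^ 2 * (((3 / 4 : ℝ) ^ 2 - ρ ^ 2) * (5 / 100000)
      * (thC ρ μ r * r ^ 2)) := by
    unfold kB
    have h5 : 0 ≤ ρ ^ 2 * (((3 / 4 : ℝ) ^ 2 - ρ ^ 2) * (5 / 100000)) * r ^ 2 := by positivity
    have h6 := mul_le_mul_of_nonneg_left t1 h5
    linarith only [h6]
  have h7 : thC ρ μ r * ((1 - ρ ^ 2) * hV 1 μ r + bB ρ * (1 - μ ^ 2 - r ^ 2)) + hV ρ μ r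
      - thC ρ μ r * hV 1 μ r - ((1 - ρ ^ 2) * HH μ + bB ρ * (1 - μ ^ 2))
      = ρ ^ 2 * Xf ρ μ r - thC ρ μ r * (ρ ^ 2 * Yf ρ μ r) := by
    rw [← hX, ← hY]; ring
  linarith only [h3, h4, h7]

/-- **Regime B with a gap.** -/
theorem qcertB {ρ : ℝ} (h0 : 0 < ρ) (hρ : ρ ≤ 3 / 4) : QCert ρ (SB ρ) (kB ρ) 3 := by
  intro μ δ hμ hδ hμδ hδ2 η hη
  rcases hδ.eq_or_lt with hd | hd
  · subst hd
    refine ⟨1, 0, 0, 0, zero_le_one, le_rfl, by norm_num, fun m c hmc => ?_, ?_⟩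
    · have h1 : |m + c| ≤ 1 := (abs_add_le m c).trans hmc
      have h2 : |m - c| ≤ 1 := (abs_sub m c).trans hmc
      have := hV_one_le h0.le (by linarith : ρ ≤ 1) h1 h2
      linarith
    · simp only [add_zero, sub_zero]
      linarith only [hη]
  · have hc := continuous_SB ρ
    set A : ℝ → ℝ := fun r => (SB ρ (μ + r) + SB ρ (μ - r)) / 2 with hA
    have hcA : Continuous A := by
      rw [hA]; fun_prop
    have hlim : Tendsto (fun r => |A δ - A r| + kB ρ * δ ^ 2 - kB ρ * r ^ 2) (𝓝[<] δ)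
        (𝓝 (|A δ - A δ| + kB ρ * δ ^ 2 - kB ρ * δ ^ 2)) := by
      apply Tendsto.mono_left _ nhdsWithin_le_nhds
      apply Continuous.tendsto
      fun_prop
    have e0 : |A δ - A δ| + kB ρ * δ ^ 2 - kB ρ * δ ^ 2 = 0 := by simp
    rw [e0] at hlim
    have hev := hlim.eventually (gt_mem_nhds hη)
    have hev3 : ∀ᶠ r in 𝓝[<] δ, r ∈ Ioo 0 δ := Ioo_mem_nhdsLT hd
    obtain ⟨r, hr1, hr2⟩ := (hev.and hev3).exists
    have hμr : μ + r < 1 := by linarith [hr2.2]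
    have hr2' : r ≤ 1 / 2 := by linarith [hr2.2]
    obtain ⟨t1, t2, t3⟩ := theta_bounds h0 hρ hμ hr2.1 hμr hr2'
    have hρ1 : ρ ≤ 1 := by linarith
    have hrδ : r ^ 2 ≤ δ ^ 2 := by
      have := hr2.1
      have := hr2.2
      gcongr
    refine ⟨thC ρ μ r, QC ρ μ r, -QC ρ μ r, PC ρ μ r, by linarith, t2, by linarith, ?_, ?_⟩
    · intro m c hmc
      have := cert_pointwise h0.le hρ1 hμ hr2.1 hμr m c hmc
      linarith
    · have hb := cert_base h0.le hρ1 hμ hr2.1.le hμr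
      have hP := PC_nonneg h0.le hρ1 hμ hr2.1 hμr
      have h1 : PC ρ μ r * r ≤ PC ρ μ r * δ := mul_le_mul_of_nonneg_left hr2.2.le hP
      have hg := LB_gap h0 hρ hμ hr2.1 hμr hr2'
      rw [LBmd_eq] at hg
      have h2 : thC ρ μ r * (A r - A δ) ≤ |A δ - A r| := by
        have h3 : A r - A δ ≤ |A δ - A r| := by
          rw [abs_sub_comm]; exact le_abs_self _
        calc thC ρ μ r * (A r - A δ) ≤ thC ρ μ r * |A δ - A r| :=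
              mul_le_mul_of_nonneg_left h3 (by linarith)
          _ ≤ 1 * |A δ - A r| := mul_le_mul_of_nonneg_right t2 (abs_nonneg _)
          _ = _ := one_mul _
      have eA1 : A r = (SB ρ (μ + r) + SB ρ (μ - r)) / 2 := rfl
      have eA2 : A δ = (SB ρ (μ + δ) + SB ρ (μ - δ)) / 2 := rfl
      rw [← eA1] at hg
      rw [← eA2]
      linarith only [hg, hb, h1, h2, hr1]

end Vale.Agent.P322.H903
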