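import Vale.Agent.P322.H903.GapA

/-! # P322: the level-one Fourier weight -/

namespace Vale.Agent.P322.H903

open Finset Vale.Agent.P322

/-- `E g(X) X_i`. -/
noncomputable def co (n : ℕ) (g : (Fin n → ℤˣ) → ℝ) (i : Fin n) : ℝ :=
  avg n (fun x => g x * ((x i : ℤ) : ℝ))

/-- level-one weight of a real function. -/
noncomputable def W1 (n : ℕ) (g : (Fin n → ℤˣ) → ℝ) : ℝ := ∑ i, (co n g i) ^ 2

lemma W1_nonneg (n : ℕ) (g : (Fin n → ℤˣ) → ℝ) : 0 ≤ W1 n g :=
  Finset.sum_nonneg (fun i _ => sq_nonneg _)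

lemma avg_neg (n : ℕ) (g : (Fin n → ℤˣ) → ℝ) : avg n (fun x => -g x) = -avg n g := by
  unfold avg
  rw [Finset.sum_neg_distrib]; ring

lemma avg_sub (n : ℕ) (g g' : (Fin n → ℤˣ) → ℝ) :
    avg n (fun x => g x - g' x) = avg n g - avg n g' := by
  unfold avg
  rw [Finset.sum_sub_distrib]; ring

lemma co_zero (n : ℕ) (g : (Fin (n + 1) → ℤˣ) → ℝ) :
    co (n + 1) g 0 = (avg n (fun x => g (Fin.cons 1 x)) - avg n (fun x => g (Fin.cons (-1) x))) / 2 := by
  unfold co
  rw [avg_succ]
  have e1 : (fun x : Fin n → ℤˣ => g (Fin.cons 1 x)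
      * (((Fin.cons 1 x : Fin (n + 1) → ℤˣ) 0 : ℤ) : ℝ)) = fun x => g (Fin.cons 1 x) := by
    funext x; simp
  have e2 : (fun x : Fin n → ℤˣ => g (Fin.cons (-1) x)
      * (((Fin.cons (-1) x : Fin (n + 1) → ℤˣ) 0 : ℤ) : ℝ)) = fun x => -g (Fin.cons (-1) x) := by
    funext x; simp
  rw [e1, e2, avg_neg]; ring

lemma co_succ (n : ℕ) (g : (Fin (n + 1) → ℤˣ) → ℝ) (i : Fin n) :
    co (n + 1) g i.succ = (co n (fun x => g (Fin.cons 1 x)) i
      + co n (fun x => g (Fin.cons (-1) x)) i) / 2 := by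
  unfold co
  rw [avg_succ]
  simp only [Fin.cons_succ]

lemma W1_succ (n : ℕ) (g : (Fin (n + 1) → ℤˣ) → ℝ) :
    W1 (n + 1) g = ((avg n (fun x => g (Fin.cons 1 x)) - avg n (fun x => g (Fin.cons (-1) x))) / 2) ^ 2
      + ∑ i, ((co n (fun x => g (Fin.cons 1 x)) i + co n (fun x => g (Fin.cons (-1) x)) i) / 2) ^ 2 := by
  unfold W1
  rw [Fin.sum_univ_succ, co_zero]
  simp only [co_succ]

/-- Bessel's inequality for the levels zero and one. -/
lemma bessel (n : ℕ) : ∀ g : (Fin n → ℤˣ) → ℝ,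
    (avg n g) ^ 2 + W1 n g ≤ avg n (fun x => g x ^ 2) := by
  induction n with
  | zero =>
    intro g
    rw [avg_zero_eq, avg_zero_eq]
    simp [W1]
  | succ n ih =>
    intro g
    rw [W1_succ, avg_succ, avg_succ]
    have hp := ih (fun x => g (Fin.cons 1 x))
    have hm := ih (fun x => g (Fin.cons (-1) x))
    set gp : (Fin n → ℤˣ) → ℝ := fun x => g (Fin.cons 1 x) with hgp
    set gm : (Fin n → ℤˣ) → ℝ := fun x => g (Fin.cons (-1) x) with hgm
    have h1 : ∑ i, ((co n gp i + co n gm i) / 2) ^ 2 ≤ (W1 n gp + W1 n gm) / 2 := by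
      unfold W1
      rw [← Finset.sum_add_distrib, Finset.sum_div]
      refine Finset.sum_le_sum (fun i _ => ?_)
      nlinarith only [sq_nonneg (co n gp i - co n gm i)]
    have e1 : avg n (fun x => g (Fin.cons 1 x) ^ 2) = avg n (fun x => gp x ^ 2) := rfl
    have e2 : avg n (fun x => g (Fin.cons (-1) x) ^ 2) = avg n (fun x => gm x ^ 2) := rfl
    rw [e1, e2]
    linarith only [hp, hm, h1]

lemma avg_sq_sign {n : ℕ} {g : (Fin n → ℤˣ) → ℝ} (hg : ∀ x, g x = 1 ∨ g x = -1) :
    avg n (fun x => g x ^ 2) = 1 := by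
  have : (fun x => g x ^ 2) = fun _ => (1 : ℝ) := by
    funext x
    rcases hg x with h | h <;> rw [h] <;> norm_num
  rw [this, avg_const]

/-- The noise operator multiplies the level-one coefficients by the correlation. -/
lemma co_TT (n : ℕ) (ε : ℝ) : ∀ (g : (Fin n → ℤˣ) → ℝ) (i : Fin n),
    co n (TT n ε g) i = (1 - 2 * ε) * co n g i := by
  induction n with
  | zero => intro g i; exact i.elim0
  | succ n ih =>
    intro g i
    set gp : (Fin n → ℤˣ) → ℝ := fun x => g (Fin.cons 1 x) with hgp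
    set gm : (Fin n → ℤˣ) → ℝ := fun x => g (Fin.cons (-1) x) with hgm
    have h1 : (fun y : Fin n → ℤˣ => TT (n + 1) ε g (Fin.cons 1 y))
        = fun y => (1 - ε) * TT n ε gp y + ε * TT n ε gm y := by
      funext y
      rw [TT_cons, ker_one_one, ker_neg_one]
    have h2 : (fun y : Fin n → ℤˣ => TT (n + 1) ε g (Fin.cons (-1) y))
        = fun y => ε * TT n ε gp y + (1 - ε) * TT n ε gm y := by
      funext y
      rw [TT_cons, ker_one_neg, ker_neg_neg]
    refine Fin.cases ?_ (fun j => ?_) i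
    · rw [co_zero, co_zero, h1, h2, avg_add, avg_add, avg_mul_left, avg_mul_left, avg_mul_left,
        avg_mul_left, avg_TT, avg_TT]
      ring
    · rw [co_succ, co_succ, h1, h2]
      have a1 : co n (fun y => (1 - ε) * TT n ε gp y + ε * TT n ε gm y) j
          = (1 - ε) * co n (TT n ε gp) j + ε * co n (TT n ε gm) j := by
        unfold co
        rw [← avg_mul_left, ← avg_mul_left, ← avg_add]
        congr 1; funext y; ring
      have a2 : co n (fun y => ε * TT n ε gp y + (1 - ε) * TT n ε gm y) j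
          = ε * co n (TT n ε gp) j + (1 - ε) * co n (TT n ε gm) j := by
        unfold co
        rw [← avg_mul_left, ← avg_mul_left, ← avg_add]
        congr 1; funext y; ring
      rw [a1, a2, ih, ih]
      ring

lemma co_half_sub (n : ℕ) (u v : (Fin n → ℤˣ) → ℝ) (i : Fin n) :
    co n (fun y => (u y - v y) / 2) i = (co n u i - co n v i) / 2 := by
  unfold co
  have : (fun y : Fin n → ℤˣ => (u y - v y) / 2 * ((y i : ℤ) : ℝ))
      = fun y => 1 / 2 * (u y * ((y i : ℤ) : ℝ)) + (-(1 / 2)) * (v y * ((y i : ℤ) : ℝ)) := by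
    funext y; ring
  rw [this, avg_add, avg_mul_left, avg_mul_left]; ring

/-- Invariance of the level-one weight under a permutation of the coordinates. -/
lemma W1_perm {n : ℕ} (σ : Equiv.Perm (Fin n)) (g : (Fin n → ℤˣ) → ℝ) :
    W1 n (fun x => g (x ∘ σ)) = W1 n g := by
  unfold W1
  rw [← Equiv.sum_comp σ (fun i => (co n (fun x => g (x ∘ σ)) i) ^ 2)]
  refine Finset.sum_congr rfl (fun i _ => ?_)
  congr 1
  unfold co
  have := avg_perm σ (fun x => g x * ((x i : ℤ) : ℝ))
  rw [← this]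
  rfl

/-! ### Functions of full level-one weight -/

lemma co_le_one {n : ℕ} {g : (Fin n → ℤˣ) → ℝ} (hg : ∀ x, g x = 1 ∨ g x = -1) (i : Fin n) :
    |co n g i| ≤ 1 := by
  unfold co
  refine abs_avg_le (fun x => ?_)
  rcases hg x with h | h <;> rcases units_cases (x i) with h' | h' <;> rw [h, h'] <;> norm_num

/-- `E x_i x_j`. -/
lemma avg_coord (n : ℕ) : ∀ i j : Fin n,
    avg n (fun x => ((x i : ℤ) : ℝ) * ((x j : ℤ) : ℝ)) = if i = j then 1 else 0 := by
  intro i j
  rcases eq_or_ne i j with h | h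
  · subst h
    rw [if_pos rfl]
    have : (fun x : Fin n → ℤˣ => ((x i : ℤ) : ℝ) * ((x i : ℤ) : ℝ)) = fun _ => 1 := by
      funext x
      rcases units_cases (x i) with h' | h' <;> rw [h'] <;> norm_num
    rw [this, avg_const]
  · rw [if_neg h]
    unfold avg
    have h1 : ∑ x : Fin n → ℤˣ, ((x i : ℤ) : ℝ) * ((x j : ℤ) : ℝ) = 0 := by
      refine Finset.sum_involution (fun x _ => Function.update x i (-(x i))) ?_ ?_ ?_ ?_
      · intro x _
        rw [Function.update_self, Function.update_of_ne h.symm]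
        push_cast; ring
      · intro x _ _ hx
        have := congrFun hx i
        rw [Function.update_self] at this
        rcases units_cases (x i) with h' | h' <;> rw [h'] at this <;> exact absurd this (by decide)
      · intro x _; exact Finset.mem_univ _
      · intro x _
        simp
    rw [h1, mul_zero]

/-- A sign-valued function whose level-one weight is at least one is a signed coordinate. -/
theorem dictator_of_W1 {n : ℕ} {f : (Fin n → ℤˣ) → ℤˣ} (h : 1 ≤ W1 n (toR f)) :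
    ∃ (i : Fin n) (s : ℤˣ), ∀ x, f x = s * x i := by
  set g := toR f with hg
  have hgc := toR_cases f
  set a := co n g with ha
  -- the projection
  have h0 : avg n (fun x => (g x - ∑ i, a i * ((x i : ℤ) : ℝ)) ^ 2) = 1 - W1 n g := by
    have e1 : (fun x : Fin n → ℤˣ => (g x - ∑ i, a i * ((x i : ℤ) : ℝ)) ^ 2)
        = fun x => (g x ^ 2 + (-2) * ∑ i, a i * (g x * ((x i : ℤ) : ℝ)))
          + ∑ i, ∑ j, (a i * a j) * (((x i : ℤ) : ℝ) * ((x j : ℤ) : ℝ)) := by
      funext x
      have e2 : ∑ i, a i * (g x * ((x i : ℤ) : ℝ)) = g x * ∑ i, a i * ((x i : ℤ) : ℝ) := by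
        rw [Finset.mul_sum]; exact Finset.sum_congr rfl (fun i _ => by ring)
      have e3 : ∑ i, ∑ j, (a i * a j) * (((x i : ℤ) : ℝ) * ((x j : ℤ) : ℝ))
          = (∑ i, a i * ((x i : ℤ) : ℝ)) * (∑ j, a j * ((x j : ℤ) : ℝ)) := by
        rw [Finset.sum_mul_sum]
        exact Finset.sum_congr rfl (fun i _ => Finset.sum_congr rfl (fun j _ => by ring))
      rw [e2, e3]; ring
    have hsum : ∀ (F : Fin n → (Fin n → ℤˣ) → ℝ), avg n (fun x => ∑ i, F i x) = ∑ i, avg n (F i) := by
      intro F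
      unfold avg
      rw [Finset.sum_comm, Finset.mul_sum]
    rw [e1, avg_add, avg_add, avg_mul_left, hsum, hsum, avg_sq_sign hgc]
    have e4 : ∀ i, avg n (fun x => a i * (g x * ((x i : ℤ) : ℝ))) = a i ^ 2 := by
      intro i
      rw [avg_mul_left]
      have : avg n (fun x => g x * ((x i : ℤ) : ℝ)) = a i := rfl
      rw [this]; ring
    have e5 : ∀ i, avg n (fun x => ∑ j, (a i * a j) * (((x i : ℤ) : ℝ) * ((x j : ℤ) : ℝ)))
        = a i ^ 2 := by
      intro i
      rw [hsum (fun j x => (a i * a j) * (((x i : ℤ) : ℝ) * ((x j : ℤ) : ℝ)))]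
      have : ∀ j, avg n (fun x => (a i * a j) * (((x i : ℤ) : ℝ) * ((x j : ℤ) : ℝ)))
          = if i = j then a i * a j else 0 := by
        intro j
        rw [avg_mul_left, avg_coord]
        split_ifs <;> simp
      rw [Finset.sum_congr rfl (fun j _ => this j)]
      simp [sq]
    rw [Finset.sum_congr rfl (fun i _ => e4 i), Finset.sum_congr rfl (fun i _ => e5 i)]
    unfold W1
    rw [← ha]
    ring
  have hle : avg n (fun x => (g x - ∑ i, a i * ((x i : ℤ) : ℝ)) ^ 2) = 0 := by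
    refine le_antisymm (by rw [h0]; linarith) ?_
    have := avg_mono (n := n) (g := fun _ => (0 : ℝ))
      (g' := fun x => (g x - ∑ i, a i * ((x i : ℤ) : ℝ)) ^ 2) (fun x => sq_nonneg _)
    rwa [avg_const] at this
  have hlin : ∀ x, g x = ∑ i, a i * ((x i : ℤ) : ℝ) := by
    intro x
    have := avg_eq_zero_of_nonneg (fun x => sq_nonneg (g x - ∑ i, a i * ((x i : ℤ) : ℝ))) hle x
    have h2 := pow_eq_zero_iff (two_ne_zero) |>.1 this
    linarith
  -- flipping a coordinate
  have hflip : ∀ i, a i = 0 ∨ a i = 1 ∨ a i = -1 := by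
    intro i
    have h1 := hlin (fun _ => 1)
    have h2 := hlin (Function.update (fun _ => 1) i (-1))
    have e : ∑ j, a j * (((Function.update (fun _ => (1 : ℤˣ)) i (-1) j : ℤˣ) : ℤ) : ℝ)
        = (∑ j, a j * (((1 : ℤˣ) : ℤ) : ℝ)) - 2 * a i := by
      rw [← Finset.add_sum_erase _ _ (Finset.mem_univ i),
        ← Finset.add_sum_erase _ (fun j => a j * (((1 : ℤˣ) : ℤ) : ℝ)) (Finset.mem_univ i)]
      rw [Function.update_self]
      have : ∑ j ∈ Finset.univ.erase i,
          a j * (((Function.update (fun _ => (1 : ℤˣ)) i (-1) j : ℤˣ) : ℤ) : ℝ)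
          = ∑ j ∈ Finset.univ.erase i, a j * (((1 : ℤˣ) : ℤ) : ℝ) := by
        refine Finset.sum_congr rfl (fun j hj => ?_)
        rw [Function.update_of_ne (Finset.ne_of_mem_erase hj)]
      rw [this]
      push_cast; ring
    rw [e, ← h1] at h2
    rcases hgc (fun _ => 1) with k1 | k1 <;>
      rcases hgc (Function.update (fun _ => 1) i (-1)) with k2 | k2
    · rw [← hg] at k1 k2
      rw [k1, k2] at h2; left; linarith
    · rw [← hg] at k1 k2
      rw [k1, k2] at h2; right; left; linarith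
    · rw [← hg] at k1 k2
      rw [k1, k2] at h2; right; right; linarith
    · rw [← hg] at k1 k2
      rw [k1, k2] at h2; left; linarith
  have hW : ∑ i, a i ^ 2 = 1 := by
    have h1 := bessel n g
    rw [avg_sq_sign hgc] at h1
    have h2 : ∑ i, a i ^ 2 = W1 n g := rfl
    rw [h2]
    linarith [sq_nonneg (avg n g)]
  obtain ⟨i, hi⟩ : ∃ i, a i ≠ 0 := by
    by_contra hc
    push Not at hc
    have : ∑ i, a i ^ 2 = 0 := Finset.sum_eq_zero (fun i _ => by rw [hc i]; norm_num)
    rw [this] at hW; norm_num at hW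
  have hother : ∀ j, j ≠ i → a j = 0 := by
    intro j hj
    by_contra hc
    have hsq : ∀ k, a k ≠ 0 → a k ^ 2 = 1 := by
      intro k hk
      rcases hflip k with h1 | h1 | h1
      · exact absurd h1 hk
      · rw [h1]; norm_num
      · rw [h1]; norm_num
    have h2 : ∑ k ∈ {i, j}, a k ^ 2 ≤ ∑ k, a k ^ 2 :=
      Finset.sum_le_univ_sum_of_nonneg (fun k => sq_nonneg _)
    rw [Finset.sum_pair hj.symm, hsq i hi, hsq j hc, hW] at h2
    norm_num at h2
  have hfin : ∀ x, g x = a i * ((x i : ℤ) : ℝ) := by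
    intro x
    rw [hlin x]
    exact Finset.sum_eq_single i (fun j _ hj => by rw [hother j hj, zero_mul])
      (fun h => absurd (Finset.mem_univ i) h)
  rcases hflip i with h1 | h1 | h1
  · exact absurd h1 hi
  · refine ⟨i, 1, fun x => ?_⟩
    have h2 := hfin x
    rw [h1, one_mul] at h2
    have h3 : (((f x : ℤˣ) : ℤ) : ℝ) = ((x i : ℤ) : ℝ) := h2
    rw [one_mul]
    exact Units.ext (by exact_mod_cast h3)
  · refine ⟨i, -1, fun x => ?_⟩
    have h2 := hfin x
    rw [h1] at h2
    have h3 : (((f x : ℤˣ) : ℤ) : ℝ) = -1 * ((x i : ℤ) : ℝ) := h2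
    have h4 : ((f x : ℤˣ) : ℤ) = -1 * ((x i : ℤˣ) : ℤ) := by exact_mod_cast h3
    apply Units.ext
    rw [h4]
    push_cast; ring

end Vale.Agent.P322.H903
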