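import Vale.Agent.P322.H903.Level

/-! # P322: dimension-free stability and the equality case -/

namespace Vale.Agent.P322.H903

open Finset Vale.Agent.P322

/-- Law-level step with a quadratic gap. -/
def QStep (ρ : ℝ) (S : ℝ → ℝ) (κ C : ℝ) : Prop :=
  ∀ (ι : Type) [Fintype ι] (w m c : ι → ℝ), (∀ i, 0 ≤ w i) → ∑ i, w i = 1 →
    (∀ i, |m i| + |c i| ≤ 1) → |∑ i, w i * c i| ≤ 1 / 2 → ∀ η : ℝ, 0 < η → ∃ θ : ℝ,
    0 ≤ θ ∧ θ ≤ 1 ∧ (1 - θ) * (1 - (∑ i, w i * m i) ^ 2) ^ 2 ≤ C * (∑ i, w i * c i) ^ 2 ∧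
    S (∑ i, w i * m i) + κ * (∑ i, w i * c i) ^ 2
      + θ * (∑ i, w i * hV 1 (m i) (c i)
        - (S (∑ i, w i * m i + ∑ i, w i * c i) + S (∑ i, w i * m i - ∑ i, w i * c i)) / 2)
      ≤ ∑ i, w i * hV ρ (m i) (c i) + η

lemma law_abs {ι : Type} [Fintype ι] {w m c : ι → ℝ} (hw : ∀ i, 0 ≤ w i) (hw1 : ∑ i, w i = 1)
    (hmc : ∀ i, |m i| + |c i| ≤ 1) : |∑ i, w i * m i| + |∑ i, w i * c i| ≤ 1 := by
  calc |∑ i, w i * m i| + |∑ i, w i * c i| ≤ ∑ i, w i * |m i| + ∑ i, w i * |c i| := by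
        refine add_le_add ?_ ?_
        · refine (Finset.abs_sum_le_sum_abs _ _).trans_eq ?_
          exact Finset.sum_congr rfl (fun i _ => by rw [abs_mul, abs_of_nonneg (hw i)])
        · refine (Finset.abs_sum_le_sum_abs _ _).trans_eq ?_
          exact Finset.sum_congr rfl (fun i _ => by rw [abs_mul, abs_of_nonneg (hw i)])
    _ = ∑ i, w i * (|m i| + |c i|) := by
        rw [← Finset.sum_add_distrib]
        exact Finset.sum_congr rfl (fun i _ => by ring)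
    _ ≤ ∑ i, w i * 1 := Finset.sum_le_sum (fun i _ => mul_le_mul_of_nonneg_left (hmc i) (hw i))
    _ = 1 := by simp [hw1]

/-- Certificates give the law-level step. -/
theorem qstep_of_qcert {ρ κ C : ℝ} {S : ℝ → ℝ} (heven : ∀ x, S (-x) = S x) (h : QCert ρ S κ C) :
    QStep ρ S κ C := by
  intro ι _ w m c hw hw1 hmc hδ η hη
  have hsum := law_abs hw hw1 hmc
  -- signs
  obtain ⟨s, hs, hs'⟩ : ∃ s : ℝ, (s = 1 ∨ s = -1) ∧ s * ∑ i, w i * m i = |∑ i, w i * m i| := by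
    rcases le_total 0 (∑ i, w i * m i) with h | h
    · exact ⟨1, Or.inl rfl, by rw [abs_of_nonneg h, one_mul]⟩
    · exact ⟨-1, Or.inr rfl, by rw [abs_of_nonpos h]; ring⟩
  obtain ⟨t, ht, ht'⟩ : ∃ t : ℝ, (t = 1 ∨ t = -1) ∧ t * ∑ i, w i * c i = |∑ i, w i * c i| := by
    rcases le_total 0 (∑ i, w i * c i) with h | h
    · exact ⟨1, Or.inl rfl, by rw [abs_of_nonneg h, one_mul]⟩
    · exact ⟨-1, Or.inr rfl, by rw [abs_of_nonpos h]; ring⟩
  have habs1 : ∀ {s x : ℝ}, (s = 1 ∨ s = -1) → |s * x| = |x| := by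
    rintro s x (rfl | rfl) <;> simp
  have em : ∑ i, w i * (s * m i) = s * ∑ i, w i * m i := by
    rw [Finset.mul_sum]; exact Finset.sum_congr rfl (fun i _ => by ring)
  have ec : ∑ i, w i * (t * c i) = t * ∑ i, w i * c i := by
    rw [Finset.mul_sum]; exact Finset.sum_congr rfl (fun i _ => by ring)
  have hVs : ∀ r a b, hV r (s * a) (t * b) = hV r a b := by
    intro r a b
    rcases hs with rfl | rfl <;> rcases ht with rfl | rfl <;>
      simp only [one_mul, neg_one_mul, hV_neg_left, hV_neg_right]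
  set μ := ∑ i, w i * m i with hμ
  set δ := ∑ i, w i * c i with hδd
  have hSsum : S (s * μ + t * δ) + S (s * μ - t * δ) = S (μ + δ) + S (μ - δ) := by
    rcases hs with rfl | rfl <;> rcases ht with rfl | rfl
    · simp only [one_mul]
    · have e1 : 1 * μ + -1 * δ = μ - δ := by ring
      have e2 : 1 * μ - -1 * δ = μ + δ := by ring
      rw [e1, e2]; ring
    · have e1 : -1 * μ + 1 * δ = -(μ - δ) := by ring
      have e2 : -1 * μ - 1 * δ = -(μ + δ) := by ring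
      rw [e1, e2, heven, heven]; ring
    · have e1 : -1 * μ + -1 * δ = -(μ + δ) := by ring
      have e2 : -1 * μ - -1 * δ = -(μ - δ) := by ring
      rw [e1, e2, heven, heven]
  have hSs : S (s * μ) = S μ := by
    rcases hs with rfl | rfl
    · rw [one_mul]
    · rw [neg_one_mul, heven]
  have hs2 : (s * μ) ^ 2 = μ ^ 2 := by rcases hs with rfl | rfl <;> ring
  have ht2 : (t * δ) ^ 2 = δ ^ 2 := by rcases ht with rfl | rfl <;> ring
  obtain ⟨θ, q0, q1, q2, hθ0, hθ1, hθ2, hpt, hval⟩ := h (s * μ) (t * δ) (by rw [hs']; exact abs_nonneg _)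
    (by rw [ht']; exact abs_nonneg _) (by rw [hs', ht']; exact hsum) (by rw [ht']; exact hδ) η hη
  rw [hSsum, hSs, ht2] at hval
  rw [hs2, ht2] at hθ2
  refine ⟨θ, hθ0, hθ1, hθ2, ?_⟩
  have hlow : ∑ i, w i * (θ * hV 1 (m i) (c i) + q0 + q1 * (s * m i) + q2 * (t * c i))
      ≤ ∑ i, w i * hV ρ (m i) (c i) := by
    refine Finset.sum_le_sum (fun i _ => mul_le_mul_of_nonneg_left ?_ (hw i))
    have := hpt (s * m i) (t * c i) (by rw [habs1 hs, habs1 ht]; exact hmc i)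
    rw [hVs, hVs] at this
    exact this
  have hcalc : ∑ i, w i * (θ * hV 1 (m i) (c i) + q0 + q1 * (s * m i) + q2 * (t * c i))
      = θ * (∑ i, w i * hV 1 (m i) (c i)) + q0 + q1 * (s * μ) + q2 * (t * δ) := by
    have e : ∀ i, w i * (θ * hV 1 (m i) (c i) + q0 + q1 * (s * m i) + q2 * (t * c i))
        = θ * (w i * hV 1 (m i) (c i)) + q0 * w i + q1 * (w i * (s * m i))
          + q2 * (w i * (t * c i)) := by
      intro i; ring
    rw [Finset.sum_congr rfl (fun i _ => e i), Finset.sum_add_distrib, Finset.sum_add_distrib,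
      Finset.sum_add_distrib, ← Finset.mul_sum, ← Finset.mul_sum, ← Finset.mul_sum,
      ← Finset.mul_sum, hw1, mul_one, em, ec]
  rw [hcalc] at hlow
  linarith only [hval, hlow]

/-- The arithmetic of the induction step. -/
lemma combine {δ v Sμ A V1 Vρ κ C c e τ qb w1 : ℝ} (hδ : 0 ≤ δ ^ 2)
    (hE1 : ∀ η : ℝ, 0 < η → ∃ θ : ℝ, 0 ≤ θ ∧ θ ≤ 1 ∧ (1 - θ) * v ^ 2 ≤ C * δ ^ 2 ∧
      Sμ + κ * δ ^ 2 + θ * (V1 - A) ≤ Vρ + η)
    (hE2 : V1 + e * w1 ≤ Vρ) (hA : v * (Sμ - A) ≤ C * δ ^ 2)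
    (hV1 : A + c * (v * qb - 13 * δ ^ 2 - 1 / 2 * (v * w1)) ≤ V1)
    (hqb0 : 0 ≤ qb) (hqb1 : qb ≤ v) (hw1 : 0 ≤ w1) (hv0 : 0 ≤ v) (hv1 : v ≤ 1)
    (hc : 0 ≤ c) (hτ0 : 0 ≤ τ) (hτ1 : τ ≤ 1 / 2) (hκ : 0 ≤ κ) (hτC : τ * C ≤ κ / 8)
    (hcC : c * C ≤ κ / 4) (hc13 : 13 * c ≤ κ / 8) (hce : 3 / 2 * c ≤ τ * e) :
    Sμ + c * (v * (qb + w1)) ≤ Vρ := by
  set R := v * qb - 13 * δ ^ 2 - 1 / 2 * (v * w1) with hR
  have hvw : 0 ≤ v * w1 := mul_nonneg hv0 hw1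
  have hRv : R ≤ v ^ 2 := by
    have : v * qb ≤ v * v := mul_le_mul_of_nonneg_left hqb1 hv0
    rw [hR]; nlinarith only [this, hδ, hvw]
  -- E1'
  have h1 : Sμ + (κ - c * C) * δ ^ 2 + c * R ≤ Vρ := by
    refine le_of_forall_pos_le_add (fun η hη => ?_)
    obtain ⟨θ, hθ0, hθ1, hθ2, hθ3⟩ := hE1 η hη
    have a1 : θ * (c * R) ≤ θ * (V1 - A) := mul_le_mul_of_nonneg_left (by linarith) hθ0
    have a2 : (1 - θ) * R ≤ (1 - θ) * v ^ 2 := mul_le_mul_of_nonneg_left hRv (by linarith)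
    have a3 : c * ((1 - θ) * R) ≤ c * (C * δ ^ 2) :=
      mul_le_mul_of_nonneg_left (a2.trans hθ2) hc
    linarith only [a1, a3, hθ3]
  -- E2'
  have h2 : v * Sμ - C * δ ^ 2 + v * (c * R) + v * (e * w1) ≤ v * Vρ := by
    have a1 : v * (A + c * R + e * w1) ≤ v * Vρ :=
      mul_le_mul_of_nonneg_left (by linarith) hv0
    linarith only [a1, hA]
  have hτv0 : 0 ≤ τ * v := mul_nonneg hτ0 hv0
  have hτv : τ * v ≤ 1 / 2 := by nlinarith only [hτ0, hτ1, hv0, hv1]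
  have b1 := mul_le_mul_of_nonneg_left h1 (show 0 ≤ 1 - τ * v by linarith)
  have b2 := mul_le_mul_of_nonneg_left h2 hτ0
  have b3 : 3 / 8 * κ * δ ^ 2 ≤ (1 - τ * v) * ((κ - c * C) * δ ^ 2) := by
    have a1 : 3 / 4 * κ * δ ^ 2 ≤ (κ - c * C) * δ ^ 2 :=
      mul_le_mul_of_nonneg_right (by linarith) hδ
    have a2 : 0 ≤ 3 / 4 * κ * δ ^ 2 := by positivity
    have a3 : 1 / 2 * (3 / 4 * κ * δ ^ 2) ≤ (1 - τ * v) * (3 / 4 * κ * δ ^ 2) :=
      mul_le_mul_of_nonneg_right (by linarith) a2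
    have a4 : (1 - τ * v) * (3 / 4 * κ * δ ^ 2) ≤ (1 - τ * v) * ((κ - c * C) * δ ^ 2) :=
      mul_le_mul_of_nonneg_left a1 (by linarith)
    linarith only [a3, a4]
  have b4 : τ * C * δ ^ 2 ≤ κ / 8 * δ ^ 2 := mul_le_mul_of_nonneg_right hτC hδ
  have b5 : 3 / 2 * c * (v * w1) ≤ τ * e * (v * w1) := mul_le_mul_of_nonneg_right hce hvw
  have b6 : 13 * c * δ ^ 2 ≤ κ / 8 * δ ^ 2 := mul_le_mul_of_nonneg_right hc13 hδ
  have e1 : (1 - τ * v) * (Sμ + (κ - c * C) * δ ^ 2 + c * R)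
      + τ * (v * Sμ - C * δ ^ 2 + v * (c * R) + v * (e * w1))
      = Sμ + c * R + (1 - τ * v) * ((κ - c * C) * δ ^ 2) - τ * C * δ ^ 2 + τ * e * (v * w1) := by
    ring
  have e2 : (1 - τ * v) * Vρ + τ * (v * Vρ) = Vρ := by ring
  have e3 : c * R = c * (v * qb) - 13 * c * δ ^ 2 - 1 / 2 * (c * (v * w1)) := by rw [hR]; ring
  have e4 : c * (v * (qb + w1)) = c * (v * qb) + c * (v * w1) := by ring
  have h3 : 0 ≤ κ * δ ^ 2 := by positivity
  rw [e4]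
  linarith only [b1, b2, b3, b4, b5, b6, e1, e2, e3, h3]

/-- The potential with the level-one term. -/
noncomputable def pot (c : ℝ) (S : ℝ → ℝ) (n : ℕ) (g : (Fin n → ℤˣ) → ℝ) : ℝ :=
  S (avg n g) + c * ((1 - (avg n g) ^ 2) * (1 - (avg n g) ^ 2 - W1 n g))

/-- Induction step along the first coordinate. -/
lemma pot_step {ε : ℝ} (h0 : 0 ≤ ε) (h1 : ε ≤ 1 / 2) {S : ℝ → ℝ} {κ C c τ : ℝ}
    (hstep : QStep (1 - 2 * ε) S κ C)
    (hosc : ∀ μ δ : ℝ, |μ| + |δ| ≤ 1 → (1 - μ ^ 2) * (S μ - (S (μ + δ) + S (μ - δ)) / 2) ≤ C * δ ^ 2)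
    (hc : 0 ≤ c) (hτ0 : 0 ≤ τ) (hτ1 : τ ≤ 1 / 2) (hκ : 0 ≤ κ) (hτC : τ * C ≤ κ / 8)
    (hcC : c * C ≤ κ / 4) (hc13 : 13 * c ≤ κ / 8)
    (hce : 3 / 2 * c ≤ τ * ((1 - (1 - 2 * ε) ^ 2) / 2 * (1 - 2 * ε) ^ 2))
    {n : ℕ}
    (ih : ∀ g : (Fin n → ℤˣ) → ℝ, (∀ x, g x = 1 ∨ g x = -1) →
      pot c S n g ≤ avg n (fun y => HH (TT n ε g y)))
    (g : (Fin (n + 1) → ℤˣ) → ℝ) (hg : ∀ x, g x = 1 ∨ g x = -1)
    (hδ : |co (n + 1) g 0| ≤ 1 / 2) :
    pot c S (n + 1) g ≤ avg (n + 1) (fun y => HH (TT (n + 1) ε g y)) := by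
  rw [co_zero] at hδ
  set gp : (Fin n → ℤˣ) → ℝ := fun x => g (Fin.cons 1 x) with hgp
  set gm : (Fin n → ℤˣ) → ℝ := fun x => g (Fin.cons (-1) x) with hgm
  have habs : ∀ {t : ℝ}, (t = 1 ∨ t = -1) → |t| ≤ 1 := by
    rintro t (rfl | rfl) <;> simp
  have hgp1 : ∀ x, gp x = 1 ∨ gp x = -1 := fun x => hg _
  have hgm1 : ∀ x, gm x = 1 ∨ gm x = -1 := fun x => hg _
  have ihp := ih gp hgp1
  have ihm := ih gm hgm1
  have hpabs : ∀ x, |gp x| ≤ 1 := fun x => habs (hg _)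
  have hmabs : ∀ x, |gm x| ≤ 1 := fun x => habs (hg _)
  have hav : avg (n + 1) g = (avg n gp + avg n gm) / 2 := avg_succ n g
  set u := TT n ε gp with hu
  set v := TT n ε gm with hv
  have h1' : ε ≤ 1 := by linarith
  have hmu : avg n u = avg n gp := avg_TT n ε gp
  have hmv : avg n v = avg n gm := avg_TT n ε gm
  have hleft : avg (n + 1) (fun y => HH (TT (n + 1) ε g y))
      = avg n (fun y => hV (1 - 2 * ε) ((u y + v y) / 2) ((u y - v y) / 2)) := by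
    rw [avg_succ]
    have e1 : (fun y : Fin n → ℤˣ => HH (TT (n + 1) ε g (Fin.cons 1 y)))
        = fun y => HH ((u y + v y) / 2 + (1 - 2 * ε) * ((u y - v y) / 2)) := by
      funext y
      rw [TT_cons, ker_one_one, ker_neg_one]
      congr 1
      simp only [hu, hv, hgp, hgm]
      ring
    have e2 : (fun y : Fin n → ℤˣ => HH (TT (n + 1) ε g (Fin.cons (-1) y)))
        = fun y => HH ((u y + v y) / 2 - (1 - 2 * ε) * ((u y - v y) / 2)) := by
      funext y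
      rw [TT_cons, ker_one_neg, ker_neg_neg]
      congr 1
      simp only [hu, hv, hgp, hgm]
      ring
    rw [e1, e2, ← avg_add]
    unfold avg hV
    rw [mul_div_assoc, Finset.sum_div]
  have hws : ∀ k : (Fin n → ℤˣ) → ℝ, ∑ y, (1 / 2 : ℝ) ^ n * k y = avg n k := by
    intro k; unfold avg; rw [Finset.mul_sum]
  have hw1 : ∑ _y : Fin n → ℤˣ, (1 / 2 : ℝ) ^ n = 1 := by
    have := hws (fun _ => 1)
    simp only [mul_one] at this
    rw [this, avg_const]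
  have hm : ∑ y, (1 / 2 : ℝ) ^ n * ((u y + v y) / 2) = (avg n gp + avg n gm) / 2 := by
    rw [hws (fun y => (u y + v y) / 2)]
    have : (fun y => (u y + v y) / 2) = fun y => 1 / 2 * u y + 1 / 2 * v y := by funext y; ring
    rw [this, avg_add, avg_mul_left, avg_mul_left, hmu, hmv]; ring
  have hcc : ∑ y, (1 / 2 : ℝ) ^ n * ((u y - v y) / 2) = (avg n gp - avg n gm) / 2 := by
    rw [hws (fun y => (u y - v y) / 2)]
    have : (fun y => (u y - v y) / 2) = fun y => 1 / 2 * u y + (-(1 / 2)) * v y := by funext y; ring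
    rw [this, avg_add, avg_mul_left, avg_mul_left, hmu, hmv]; ring
  have hdom : ∀ y, |(u y + v y) / 2| + |(u y - v y) / 2| ≤ 1 := fun y =>
    abs_half_add_half (abs_TT_le h0 h1' hpabs y) (abs_TT_le h0 h1' hmabs y)
  have hV1e : ∑ y, (1 / 2 : ℝ) ^ n * hV 1 ((u y + v y) / 2) ((u y - v y) / 2)
      = (avg n (fun y => HH (u y)) + avg n (fun y => HH (v y))) / 2 := by
    rw [hws (fun y => hV 1 ((u y + v y) / 2) ((u y - v y) / 2))]
    have : (fun y => hV 1 ((u y + v y) / 2) ((u y - v y) / 2))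
        = fun y => 1 / 2 * HH (u y) + 1 / 2 * HH (v y) := by
      funext y
      have a1 : (u y + v y) / 2 + 1 * ((u y - v y) / 2) = u y := by ring
      have a2 : (u y + v y) / 2 - 1 * ((u y - v y) / 2) = v y := by ring
      unfold hV
      rw [a1, a2]; ring
    rw [this, avg_add, avg_mul_left, avg_mul_left]; ring
  have hμδ := law_abs (w := fun _ : Fin n → ℤˣ => (1 / 2 : ℝ) ^ n) (fun _ => by positivity) hw1 hdom
  rw [hm, hcc] at hμδ
  have key : ∀ η : ℝ, 0 < η → ∃ θ : ℝ, 0 ≤ θ ∧ θ ≤ 1 ∧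
      (1 - θ) * (1 - ((avg n gp + avg n gm) / 2) ^ 2) ^ 2 ≤ C * ((avg n gp - avg n gm) / 2) ^ 2 ∧
      S ((avg n gp + avg n gm) / 2) + κ * ((avg n gp - avg n gm) / 2) ^ 2
      + θ * ((avg n (fun y => HH (u y)) + avg n (fun y => HH (v y))) / 2
        - (S (avg n gp) + S (avg n gm)) / 2)
      ≤ avg n (fun y => hV (1 - 2 * ε) ((u y + v y) / 2) ((u y - v y) / 2)) + η := by
    intro η hη
    have k := hstep (Fin n → ℤˣ) (fun _ => (1 / 2 : ℝ) ^ n) (fun y => (u y + v y) / 2)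
      (fun y => (u y - v y) / 2) (fun _ => by positivity) hw1 hdom
    rw [hm, hcc] at k
    have k2 := k hδ η hη
    have s1 : (avg n gp + avg n gm) / 2 + (avg n gp - avg n gm) / 2 = avg n gp := by ring
    have s2 : (avg n gp + avg n gm) / 2 - (avg n gp - avg n gm) / 2 = avg n gm := by ring
    rw [s1, s2, hV1e, hws (fun y => hV (1 - 2 * ε) ((u y + v y) / 2) ((u y - v y) / 2))] at k2
    exact k2
  -- second estimate
  have hρ0 : 0 ≤ 1 - 2 * ε := by linarith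
  have hρ1 : 1 - 2 * ε ≤ 1 := by linarith
  set a := avg n gp with ha
  set b := avg n gm with hb
  set w1 := ∑ i, ((co n gp i - co n gm i) / 2) ^ 2 with hw1d
  have hE2 : (avg n (fun y => HH (u y)) + avg n (fun y => HH (v y))) / 2
      + (1 - (1 - 2 * ε) ^ 2) / 2 * (1 - 2 * ε) ^ 2 * w1
      ≤ avg n (fun y => hV (1 - 2 * ε) ((u y + v y) / 2) ((u y - v y) / 2)) := by
    have a1 : avg n (fun y => hV 1 ((u y + v y) / 2) ((u y - v y) / 2)
        + (1 - (1 - 2 * ε) ^ 2) / 2 * ((u y - v y) / 2) ^ 2)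
        ≤ avg n (fun y => hV (1 - 2 * ε) ((u y + v y) / 2) ((u y - v y) / 2)) :=
      avg_mono (fun y => by
        have := hV_gain hρ0 hρ1 (hdom y)
        linarith)
    rw [avg_add, avg_mul_left] at a1
    have a2 : avg n (fun y => hV 1 ((u y + v y) / 2) ((u y - v y) / 2))
        = (avg n (fun y => HH (u y)) + avg n (fun y => HH (v y))) / 2 := by
      rw [← hV1e, hws (fun y => hV 1 ((u y + v y) / 2) ((u y - v y) / 2))]
    have a3 := bessel n (fun y => (u y - v y) / 2)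
    have a4 : W1 n (fun y => (u y - v y) / 2) = (1 - 2 * ε) ^ 2 * w1 := by
      unfold W1
      rw [hw1d, Finset.mul_sum]
      refine Finset.sum_congr rfl (fun i _ => ?_)
      rw [co_half_sub, hu, hv, co_TT, co_TT]
      ring
    have hρ2 : 0 ≤ (1 - (1 - 2 * ε) ^ 2) / 2 := by nlinarith only [hρ0, hρ1]
    have a5 : (1 - 2 * ε) ^ 2 * w1 ≤ avg n (fun y => ((u y - v y) / 2) ^ 2) := by
      rw [← a4]; linarith [sq_nonneg (avg n (fun y => (u y - v y) / 2))]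
    have a6 := mul_le_mul_of_nonneg_left a5 hρ2
    rw [a2] at a1
    linarith only [a1, a6]
  -- Fourier bookkeeping
  have hW : W1 (n + 1) g = ((a - b) / 2) ^ 2 + ∑ i, ((co n gp i + co n gm i) / 2) ^ 2 := W1_succ n g
  set wg := ∑ i, ((co n gp i + co n gm i) / 2) ^ 2 with hwg
  set Γ := ∑ i, ((co n gp i + co n gm i) / 2) * ((co n gp i - co n gm i) / 2) with hΓ
  have hWp : W1 n gp = wg + w1 + 2 * Γ := by
    unfold W1
    rw [hwg, hw1d, hΓ, Finset.mul_sum, ← Finset.sum_add_distrib, ← Finset.sum_add_distrib]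
    exact Finset.sum_congr rfl (fun i _ => by ring)
  have hWm : W1 n gm = wg + w1 - 2 * Γ := by
    unfold W1
    rw [hwg, hw1d, hΓ, Finset.mul_sum, ← Finset.sum_add_distrib, ← Finset.sum_sub_distrib]
    exact Finset.sum_congr rfl (fun i _ => by ring)
  have hCS : Γ ^ 2 ≤ wg * w1 := Finset.sum_mul_sq_le_sq_mul_sq _ _ _
  have hw1nn : 0 ≤ w1 := Finset.sum_nonneg (fun i _ => sq_nonneg _)
  have hwgnn : 0 ≤ wg := Finset.sum_nonneg (fun i _ => sq_nonneg _)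
  have hBp := bessel n gp
  have hBm := bessel n gm
  have hBg := bessel (n + 1) g
  rw [avg_sq_sign hgp1] at hBp
  rw [avg_sq_sign hgm1] at hBm
  rw [avg_sq_sign hg, hav, hW] at hBg
  rw [hWp, ← ha] at hBp
  rw [hWm, ← hb] at hBm
  unfold pot at ihp ihm ⊢
  rw [hav, hW, hleft]
  rw [hWp, ← ha] at ihp
  rw [hWm, ← hb] at ihm
  set μ := (a + b) / 2 with hμ
  set δ := (a - b) / 2 with hδd
  have ea : a = μ + δ := by rw [hμ, hδd]; ring
  have eb : b = μ - δ := by rw [hμ, hδd]; ring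
  set vv := 1 - μ ^ 2 with hvv
  set qb := 1 - μ ^ 2 - δ ^ 2 - wg - w1 with hqb
  have hμ1 : |μ| ≤ 1 := by linarith [abs_nonneg δ]
  have hμ2 : μ ^ 2 ≤ 1 := by rw [sq_le_one_iff_abs_le_one]; exact hμ1
  have hqb0 : 0 ≤ qb := by
    rw [ea] at hBp
    rw [eb] at hBm
    rw [hqb]; linarith only [hBp, hBm]
  have hqb1 : qb ≤ vv := by rw [hqb, hvv]; linarith [sq_nonneg δ]
  have hΓv : Γ ^ 2 ≤ vv * w1 := by
    refine hCS.trans (mul_le_mul_of_nonneg_right ?_ hw1nn)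
    rw [hvv]; linarith [sq_nonneg δ]
  have hfin := combine (δ := δ) (v := vv) (Sμ := S μ) (A := (S a + S b) / 2)
    (V1 := (avg n (fun y => HH (u y)) + avg n (fun y => HH (v y))) / 2)
    (Vρ := avg n (fun y => hV (1 - 2 * ε) ((u y + v y) / 2) ((u y - v y) / 2)))
    (κ := κ) (C := C) (c := c) (e := (1 - (1 - 2 * ε) ^ 2) / 2 * (1 - 2 * ε) ^ 2) (τ := τ)
    (qb := qb) (w1 := w1) (sq_nonneg δ) key hE2 (by
      have := hosc μ δ hμδ
      rw [← ea, ← eb] at this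
      exact this) ?_ hqb0 hqb1 hw1nn (by rw [hvv]; linarith) (by rw [hvv]; linarith [sq_nonneg μ])
    hc hτ0 hτ1 hκ hτC hcC hc13 hce
  · have e1 : vv * (qb + w1) = vv * (1 - μ ^ 2 - (δ ^ 2 + wg)) := by rw [hqb]; ring
    rw [e1] at hfin
    exact hfin
  · -- the inductive hypothesis
    have j1 : (S a + S b) / 2 + c * (((1 - a ^ 2) * (1 - a ^ 2 - (wg + w1 + 2 * Γ))
        + (1 - b ^ 2) * (1 - b ^ 2 - (wg + w1 - 2 * Γ))) / 2)
        ≤ (avg n (fun y => HH (u y)) + avg n (fun y => HH (v y))) / 2 := by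
      linarith only [ihp, ihm]
    have j2 : vv * qb - 13 * δ ^ 2 - 1 / 2 * (vv * w1)
        ≤ ((1 - a ^ 2) * (1 - a ^ 2 - (wg + w1 + 2 * Γ))
        + (1 - b ^ 2) * (1 - b ^ 2 - (wg + w1 - 2 * Γ))) / 2 := by
      rw [ea, eb]
      have e2 : ((1 - (μ + δ) ^ 2) * (1 - (μ + δ) ^ 2 - (wg + w1 + 2 * Γ))
        + (1 - (μ - δ) ^ 2) * (1 - (μ - δ) ^ 2 - (wg + w1 - 2 * Γ))) / 2
        = (vv - δ ^ 2) * qb + 4 * μ ^ 2 * δ ^ 2 + 4 * (μ * δ * Γ) := by
        rw [hvv, hqb]; ring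
      rw [e2]
      have e3 : δ ^ 2 * qb ≤ δ ^ 2 * 1 := mul_le_mul_of_nonneg_left
        (by rw [hqb]; linarith [sq_nonneg μ, sq_nonneg δ]) (sq_nonneg δ)
      have e4 : -(8 * (μ * δ) ^ 2 + 1 / 2 * Γ ^ 2) ≤ 4 * (μ * δ * Γ) := by
        linarith only [sq_nonneg (4 * (μ * δ) + Γ)]
      have e5 : (μ * δ) ^ 2 ≤ δ ^ 2 := by
        rw [mul_pow]
        calc μ ^ 2 * δ ^ 2 ≤ 1 * δ ^ 2 := mul_le_mul_of_nonneg_right hμ2 (sq_nonneg δ)
          _ = δ ^ 2 := one_mul _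
      have e6 : 0 ≤ μ ^ 2 * δ ^ 2 := by positivity
      have e7 := sq_nonneg δ
      linarith only [e3, e4, e5, e6, e7, hΓv]
    have j3 := mul_le_mul_of_nonneg_left j2 hc
    linarith only [j1, j3]

end Vale.Agent.P322.H903
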