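import Vale.Agent.P322.H903.Main

/-! # P322: stability in terms of the level-one weight, and the equality case -/

namespace Vale.Agent.P322.H903

open Finset Vale.Agent.P322

/-- Two first-level coefficients. -/
lemma co_pair {m : ℕ} {g : (Fin (m + 2) → ℤˣ) → ℝ} (hg : ∀ x, |g x| ≤ 1) :
    |co (m + 2) g 0| + |co (m + 2) g 1| ≤ 1 := by
  have e1 : (1 : Fin (m + 2)) = (0 : Fin (m + 1)).succ := rfl
  rw [e1, co_succ, co_zero, co_zero, co_zero, avg_succ, avg_succ]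
  have hq : ∀ a b : ℤˣ, |avg m (fun x => g (Fin.cons a (Fin.cons b x : Fin (m + 1) → ℤˣ)))| ≤ 1 :=
    fun a b => abs_avg_le (fun x => hg _)
  have h1 := abs_le.1 (hq 1 1)
  have h2 := abs_le.1 (hq 1 (-1))
  have h3 := abs_le.1 (hq (-1) 1)
  have h4 := abs_le.1 (hq (-1) (-1))
  apply abs_add_abs_le <;> linarith only [h1.1, h1.2, h2.1, h2.2, h3.1, h3.2, h4.1, h4.2]

lemma co_swap {m : ℕ} (g : (Fin (m + 2) → ℤˣ) → ℝ) :
    co (m + 2) (fun x => g (x ∘ (Equiv.swap 0 1))) 0 = co (m + 2) g 1 := by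
  unfold co
  have := avg_perm (Equiv.swap (0 : Fin (m + 2)) 1) (fun x => g x * ((x 1 : ℤ) : ℝ))
  rw [← this]
  simp only [Function.comp, Equiv.swap_apply_right]

/-- The potential with the level-one term is a lower bound of the conditional entropy. -/
theorem pot_le {ε : ℝ} (h0 : 0 ≤ ε) (h1 : ε ≤ 1 / 2) {S : ℝ → ℝ} {κ C c τ : ℝ}
    (hS1 : S 1 ≤ 0) (hS2 : S (-1) ≤ 0) (hS0 : S 0 ≤ HH (1 - 2 * ε))
    (hstep : QStep (1 - 2 * ε) S κ C)
    (hosc : ∀ μ δ : ℝ, |μ| + |δ| ≤ 1 → (1 - μ ^ 2) * (S μ - (S (μ + δ) + S (μ - δ)) / 2) ≤ C * δ ^ 2)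
    (hc : 0 ≤ c) (hτ0 : 0 ≤ τ) (hτ1 : τ ≤ 1 / 2) (hκ : 0 ≤ κ) (hτC : τ * C ≤ κ / 8)
    (hcC : c * C ≤ κ / 4) (hc13 : 13 * c ≤ κ / 8)
    (hce : 3 / 2 * c ≤ τ * ((1 - (1 - 2 * ε) ^ 2) / 2 * (1 - 2 * ε) ^ 2)) (n : ℕ) :
    ∀ g : (Fin n → ℤˣ) → ℝ, (∀ x, g x = 1 ∨ g x = -1) →
      pot c S n g ≤ avg n (fun y => HH (TT n ε g y)) := by
  have habs : ∀ {t : ℝ}, (t = 1 ∨ t = -1) → |t| ≤ 1 := by
    rintro t (rfl | rfl) <;> simp
  induction n with
  | zero =>
    intro g hg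
    unfold pot
    rw [avg_zero_eq, avg_zero_eq, TT_zero_eq]
    rcases hg Fin.elim0 with h | h
    · rw [h]
      have : HH 1 = 0 := by simp [HH]
      rw [this]; norm_num; exact hS1
    · rw [h]
      have : HH (-1) = 0 := by simp [HH]
      rw [this]; norm_num; exact hS2
  | succ n ih =>
    intro g hg
    rcases n with _ | n
    · -- one coordinate
      unfold pot
      rw [W1_succ, avg_succ, avg_succ, avg_zero_eq, avg_zero_eq, avg_zero_eq, avg_zero_eq]
      rw [TT_cons, TT_cons, TT_zero_eq, TT_zero_eq, ker_one_one, ker_neg_one, ker_one_neg,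
        ker_neg_neg]
      simp only [Finset.univ_eq_empty, Finset.sum_empty, add_zero]
      rcases hg (Fin.cons 1 Fin.elim0) with ha | ha <;>
        rcases hg (Fin.cons (-1) Fin.elim0) with hb | hb
      · rw [ha, hb]
        have e1 : (1 + 1 : ℝ) / 2 = 1 := by norm_num
        have e2 : (1 - ε) * 1 + ε * 1 = (1 : ℝ) := by ring
        have e3 : ε * 1 + (1 - ε) * 1 = (1 : ℝ) := by ring
        rw [e1, e2, e3]
        have : HH 1 = 0 := by simp [HH]
        rw [this]; norm_num; exact hS1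
      · rw [ha, hb]
        have e1 : ((1 : ℝ) + -1) / 2 = 0 := by norm_num
        have e2 : (1 - ε) * 1 + ε * (-1) = (1 - 2 * ε : ℝ) := by ring
        have e3 : ε * 1 + (1 - ε) * (-1) = -(1 - 2 * ε : ℝ) := by ring
        rw [e1, e2, e3, HH_neg]; norm_num; linarith
      · rw [ha, hb]
        have e1 : (-(1 : ℝ) + 1) / 2 = 0 := by norm_num
        have e2 : (1 - ε) * (-1) + ε * 1 = -(1 - 2 * ε : ℝ) := by ring
        have e3 : ε * (-1) + (1 - ε) * 1 = (1 - 2 * ε : ℝ) := by ring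
        rw [e1, e2, e3, HH_neg]; norm_num; linarith
      · rw [ha, hb]
        have e1 : (-(1 : ℝ) + -1) / 2 = -1 := by norm_num
        have e2 : (1 - ε) * (-1) + ε * (-1) = (-1 : ℝ) := by ring
        have e3 : ε * (-1) + (1 - ε) * (-1) = (-1 : ℝ) := by ring
        rw [e1, e2, e3]
        have : HH (-1) = 0 := by simp [HH]
        rw [this]; norm_num; exact hS2
    · -- at least two coordinates
      have key : ∀ g : (Fin (n + 2) → ℤˣ) → ℝ, (∀ x, g x = 1 ∨ g x = -1) →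
          |co (n + 2) g 0| ≤ 1 / 2 →
          pot c S (n + 2) g ≤ avg (n + 2) (fun y => HH (TT (n + 2) ε g y)) :=
        fun g hg hsm => pot_step h0 h1 hstep hosc hc hτ0 hτ1 hκ hτC hcC hc13 hce ih g hg hsm
      have hpair := co_pair (m := n) (g := g) (fun x => habs (hg x))
      rcases le_total |co (n + 2) g 0| |co (n + 2) g 1| with h | h
      · exact key g hg (by linarith)
      · have hswap := key (fun x => g (x ∘ (Equiv.swap 0 1))) (fun x => hg _)
          (by rw [co_swap]; linarith)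
        unfold pot at hswap ⊢
        rw [avg_perm, rhs_perm, W1_perm] at hswap
        exact hswap

/-- Existence of the constants. -/
lemma exists_const {κ e : ℝ} (hκ : 0 < κ) (he : 0 < e) : ∃ c τ : ℝ, 0 < c ∧ 0 ≤ τ ∧ τ ≤ 1 / 2 ∧
    τ * 3 ≤ κ / 8 ∧ c * 3 ≤ κ / 4 ∧ 13 * c ≤ κ / 8 ∧ 3 / 2 * c ≤ τ * e := by
  have hτ : 0 < min (1 / 2) (κ / 24) := lt_min (by norm_num) (by positivity)
  have h1 := min_le_left (1 / 2 : ℝ) (κ / 24)
  have h2 := min_le_right (1 / 2 : ℝ) (κ / 24)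
  set τ := min (1 / 2) (κ / 24) with hτd
  have hc : 0 < min (κ / 104) (τ * e / 2) := lt_min (by positivity) (by positivity)
  have h3 := min_le_left (κ / 104) (τ * e / 2)
  have h4 := min_le_right (κ / 104) (τ * e / 2)
  have h5 : 0 < τ * e := by positivity
  exact ⟨min (κ / 104) (τ * e / 2), τ, hc, hτ.le, h1, by linarith, by linarith, by linarith,
    by linarith⟩

lemma kB_pos {ρ : ℝ} (h0 : 0 < ρ) (h1 : ρ < 3 / 4) : 0 < kB ρ := by
  unfold kB
  have : 0 < (3 / 4 : ℝ) ^ 2 - ρ ^ 2 := by nlinarith only [h0, h1]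
  positivity

lemma kA_pos {ρ : ℝ} (h0 : 0 ≤ ρ) (h1 : ρ < 1) : 0 < kA ρ := by
  unfold kA
  have := sa1_HH_pos h0 h1
  positivity

/-- A potential with all the properties, for each correlation. -/
lemma exists_pot {ε : ℝ} (h0 : 0 < ε) (h1 : ε < 1 / 2) : ∃ (S : ℝ → ℝ) (c : ℝ), 0 < c ∧
    (∀ μ, |μ| ≤ 1 → HH (1 - 2 * ε) + HH μ - Real.log 2
      + Real.log 2 / 4 * ((1 - 2 * ε) ^ 2 * μ ^ 2) ≤ S μ) ∧
    ∀ (n : ℕ) (g : (Fin n → ℤˣ) → ℝ), (∀ x, g x = 1 ∨ g x = -1) →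
      pot c S n g ≤ avg n (fun y => HH (TT n ε g y)) := by
  have hρ0 : 0 < 1 - 2 * ε := by linarith
  have hρ1 : 1 - 2 * ε < 1 := by linarith
  have he : 0 < (1 - (1 - 2 * ε) ^ 2) / 2 * (1 - 2 * ε) ^ 2 := by
    have : 0 < 1 - (1 - 2 * ε) ^ 2 := by nlinarith only [hρ0, hρ1]
    positivity
  rcases lt_or_ge (1 - 2 * ε) (3 / 4) with h | h
  · obtain ⟨c, τ, hc, hτ0, hτ1, k1, k2, k3, k4⟩ := exists_const (kB_pos hρ0 h) he
    refine ⟨SB (1 - 2 * ε), c, hc, fun μ hμ =>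
      H880.SB_ge' (by rw [abs_le]; constructor <;> linarith) hμ, fun n => ?_⟩
    exact pot_le h0.le h1.le (SB_one _).le (SB_neg_one _).le (SB_zero _).le
      (qstep_of_qcert (SB_even _) (qcertB hρ0 h.le)) (fun μ δ hμδ => osc_SB hρ0.le hρ1.le hμδ)
      hc.le hτ0 hτ1 (kB_pos hρ0 h).le k1 k2 k3 k4 n
  · obtain ⟨c, τ, hc, hτ0, hτ1, k1, k2, k3, k4⟩ := exists_const (kA_pos hρ0.le hρ1) he
    refine ⟨Vale.Agent.P322.SA (1 - 2 * ε), c, hc, fun μ hμ => H880.SA_ge' h hρ1.le hμ,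
      fun n => ?_⟩
    exact pot_le h0.le h1.le (SA_one _) (SA_neg_one _) (SA_zero _)
      (qstep_of_qcert (SA_even _) (qcertA (by linarith) hρ1))
      (fun μ δ hμδ => osc_SA (by rw [abs_le]; constructor <;> linarith) hμδ)
      hc.le hτ0 hτ1 (kA_pos hρ0.le hρ1).le k1 k2 k3 k4 n

/-- **Dimension-free stability**, in terms of the level-one weight. -/
theorem stability_W1 {ε : ℝ} (h0 : 0 < ε) (h1 : ε < 1 / 2) : ∃ c : ℝ, 0 < c ∧
    ∀ (n : ℕ) (f : (Fin n → ℤˣ) → ℤˣ),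
      mutualInfo (outLaw n ε f) ≤ 1 - h2 ε - c * (1 - W1 n (toR f)) := by
  obtain ⟨S, c, hc, hS, hpot⟩ := exists_pot h0 h1
  have hl : 0 < Real.log 2 := Real.log_pos (by norm_num)
  have hρ0 : 0 < 1 - 2 * ε := by linarith
  set c2 := Real.log 2 / 4 * (1 - 2 * ε) ^ 2 with hc2
  have hc2p : 0 < c2 := by rw [hc2]; positivity
  have hm1 := min_le_left (c / 2) (c2 / 2)
  have hm2 := min_le_right (c / 2) (c2 / 2)
  have hm : 0 < min (c / 2) (c2 / 2) := lt_min (by positivity) (by positivity)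
  set c3 := min (c / 2) (c2 / 2) with hc3
  refine ⟨c3 / Real.log 2, by positivity, fun n f => ?_⟩
  rw [mutualInfo_outLaw h0.le (by linarith) f, h2_eq]
  rw [div_le_iff₀ hl, sub_mul, sub_mul, div_mul_cancel₀ _ hl.ne', one_mul]
  have hF := hpot n (toR f) (toR_cases f)
  have hFabs : ∀ x, |toR f x| ≤ 1 := by
    intro x
    rcases toR_cases f x with h | h <;> rw [h] <;> simp
  have hμ := abs_avg_le hFabs
  have h3 := hS _ hμ
  have hb := bessel n (toR f)
  rw [avg_sq_sign (toR_cases f)] at hb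
  have hW0 := W1_nonneg n (toR f)
  unfold pot at hF
  set μ := avg n (toR f) with hμd
  set W := W1 n (toR f) with hWd
  have e : c3 / Real.log 2 * (1 - W) * Real.log 2 = c3 * (1 - W) := by field_simp
  rw [e]
  have hμ2 : μ ^ 2 ≤ 1 := by rw [sq_le_one_iff_abs_le_one]; exact hμ
  have e2 : Real.log 2 / 4 * ((1 - 2 * ε) ^ 2 * μ ^ 2) = c2 * μ ^ 2 := by rw [hc2]; ring
  rw [e2] at h3
  have hmain : c3 * (1 - W) ≤ c2 * μ ^ 2 + c * ((1 - μ ^ 2) * (1 - μ ^ 2 - W)) := by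
    have hq : 0 ≤ 1 - μ ^ 2 - W := by linarith
    rcases le_total (μ ^ 2) (1 / 2) with h | h
    · have a1 : 1 / 2 * (1 - μ ^ 2 - W) ≤ (1 - μ ^ 2) * (1 - μ ^ 2 - W) :=
        mul_le_mul_of_nonneg_right (by linarith) hq
      have a2 : c * (1 / 2 * (1 - μ ^ 2 - W)) ≤ c * ((1 - μ ^ 2) * (1 - μ ^ 2 - W)) :=
        mul_le_mul_of_nonneg_left a1 hc.le
      have a3 : c3 * (1 - μ ^ 2 - W) ≤ c / 2 * (1 - μ ^ 2 - W) :=
        mul_le_mul_of_nonneg_right hm1 hq
      have a4 : c3 * μ ^ 2 ≤ c2 / 2 * μ ^ 2 := mul_le_mul_of_nonneg_right hm2 (sq_nonneg _)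
      have a5 : 0 ≤ c2 * μ ^ 2 := by positivity
      linarith only [a2, a3, a4, a5]
    · have a1 : c2 * (1 / 2) ≤ c2 * μ ^ 2 := mul_le_mul_of_nonneg_left h hc2p.le
      have a2 : 0 ≤ c * ((1 - μ ^ 2) * (1 - μ ^ 2 - W)) :=
        mul_nonneg hc.le (mul_nonneg (by linarith) hq)
      have a3 : c3 * (1 - W) ≤ c3 * 1 := mul_le_mul_of_nonneg_left (by linarith) hm.le
      linarith only [a1, a2, a3, hm2]
  linarith only [hF, h3, hmain]

/-! ### The equality case -/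

/-- The noise operator on a coordinate. -/
lemma TT_coord (n : ℕ) (ε : ℝ) : ∀ (i : Fin n) (y : Fin n → ℤˣ),
    TT n ε (fun x => ((x i : ℤ) : ℝ)) y = (1 - 2 * ε) * ((y i : ℤ) : ℝ) := by
  induction n with
  | zero => intro i; exact i.elim0
  | succ n ih =>
    intro i y
    obtain ⟨a, z, rfl⟩ : ∃ (a : ℤˣ) (z : Fin n → ℤˣ), y = Fin.cons a z :=
      ⟨y 0, Fin.tail y, (Fin.cons_self_tail y).symm⟩
    rw [TT_cons]
    refine Fin.cases ?_ (fun j => ?_) i
    · simp only [Fin.cons_zero]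
      rw [TT_const, TT_const]
      rcases units_cases a with rfl | rfl
      · rw [ker_one_one, ker_neg_one]; push_cast; ring
      · rw [ker_one_neg, ker_neg_neg]; push_cast; ring
    · simp only [Fin.cons_succ]
      rw [ih, ← add_mul]
      have : ker ε 1 a + ker ε (-1) a = 1 := by
        have := sum_ker_left ε a
        rwa [sum_units] at this
      rw [this, one_mul]

lemma TT_smul (n : ℕ) (ε c : ℝ) (g : (Fin n → ℤˣ) → ℝ) (y : Fin n → ℤˣ) :
    TT n ε (fun x => c * g x) y = c * TT n ε g y := by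
  unfold TT
  rw [Finset.mul_sum]
  exact Finset.sum_congr rfl (fun x _ => by ring)

lemma avg_coord_one (n : ℕ) : ∀ i : Fin n, avg n (fun x => ((x i : ℤ) : ℝ)) = 0 := by
  intro i
  unfold avg
  have h1 : ∑ x : Fin n → ℤˣ, ((x i : ℤ) : ℝ) = 0 := by
    refine Finset.sum_involution (fun x _ => Function.update x i (-(x i))) ?_ ?_ ?_ ?_
    · intro x _
      rw [Function.update_self]
      push_cast; ring
    · intro x _ _ hx
      have := congrFun hx i
      rw [Function.update_self] at this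
      rcases units_cases (x i) with h' | h' <;> rw [h'] at this <;> exact absurd this (by decide)
    · intro x _; exact Finset.mem_univ _
    · intro x _
      simp
  rw [h1, mul_zero]

/-- Signed coordinates attain the bound. -/
theorem dictator_eq {ε : ℝ} (h0 : 0 ≤ ε) (h1 : ε ≤ 1) {n : ℕ} {f : (Fin n → ℤˣ) → ℤˣ} {i : Fin n}
    {s : ℤˣ} (hf : ∀ x, f x = s * x i) : mutualInfo (outLaw n ε f) = 1 - h2 ε := by
  have hl : 0 < Real.log 2 := Real.log_pos (by norm_num)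
  rw [mutualInfo_outLaw h0 h1 f, h2_eq]
  have e : toR f = fun x => ((s : ℤ) : ℝ) * ((x i : ℤ) : ℝ) := by
    funext x
    unfold toR
    rw [hf x]
    push_cast; ring
  have e1 : avg n (toR f) = 0 := by
    rw [e, avg_mul_left, avg_coord_one, mul_zero]
  have e2 : (fun y => HH (TT n ε (toR f) y)) = fun _ => HH (1 - 2 * ε) := by
    funext y
    rw [e, TT_smul, TT_coord]
    rcases units_cases s with rfl | rfl <;> rcases units_cases (y i) with h | h <;> rw [h] <;>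
      push_cast
    · rw [one_mul, mul_one]
    · rw [one_mul, mul_neg_one, HH_neg]
    · rw [mul_one, neg_one_mul, HH_neg]
    · rw [mul_neg_one, neg_one_mul, neg_neg]
  rw [e1, e2, avg_const, HH_zero, sub_div, div_self hl.ne']

/-- **The equality case**: for `0 < ε < 1/2` only signed coordinates attain the bound. -/
theorem equality_iff {ε : ℝ} (h0 : 0 < ε) (h1 : ε < 1 / 2) (n : ℕ) (f : (Fin n → ℤˣ) → ℤˣ) :
    mutualInfo (outLaw n ε f) = 1 - h2 ε ↔ ∃ (i : Fin n) (s : ℤˣ), ∀ x, f x = s * x i := by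
  constructor
  · intro h
    obtain ⟨c, hc, hst⟩ := stability_W1 h0 h1
    have h2 := hst n f
    rw [h] at h2
    have h3 : 0 ≤ -(c * (1 - W1 n (toR f))) := by linarith
    have h4 : 1 ≤ W1 n (toR f) := by
      by_contra hcon
      have : 0 < c * (1 - W1 n (toR f)) := mul_pos hc (by linarith [not_le.1 hcon])
      linarith
    exact dictator_of_W1 h4
  · rintro ⟨i, s, hf⟩
    exact dictator_eq h0.le (by linarith) hf

end Vale.Agent.P322.H903
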